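import Mathlib.GroupTheory.Coxeter.Inversion
import Mathlib.Tactic

/-! P203, block COX-BASICS, part 2 (extracted from the files of P035): the reflection cocycle
`eta cs w t ∈ ZMod 2` and strong exchange, for an arbitrary Coxeter system.

Main names: `eta`, `eta_mul`, `lt_mul_iff_eta`, `mul_lt_iff_eta`. -/

set_option linter.all false

namespace Vale.Agent.P203.Cox

variable {B : Type*} {W : Type*} [Group W] {M : CoxeterMatrix B} (cs : CoxeterSystem M W)

open Classical in
/-- indicator of equality in `ZMod 2` -/
noncomputable def ind (a b : W) : ZMod 2 := if a = b then 1 else 0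

omit [Group W] in
theorem ind_self (a : W) : ind a a = 1 := by simp [ind]

omit [Group W] in
theorem ind_ne {a b : W} (h : a ≠ b) : ind a b = 0 := by simp [ind, h]

/-- the generating maps of the parity action -/
noncomputable def parStep (i : B) : Function.End (W × ZMod 2) := fun p =>
  (cs.simple i * p.1 * cs.simple i, p.2 + ind p.1 (cs.simple i))

theorem parStep_two (i j : B) (p : W × ZMod 2) :
    (parStep cs i * parStep cs j) p =
      (cs.simple i * cs.simple j * p.1 * (cs.simple i * cs.simple j)⁻¹,
        p.2 + (ind p.1 (cs.simple j) +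
          ind p.1 (cs.simple j * (cs.simple i * cs.simple j)))) := by
  have h1 : (parStep cs i * parStep cs j) p = parStep cs i (parStep cs j p) := rfl
  rw [h1]
  unfold parStep
  refine Prod.ext ?_ ?_
  · simp [mul_assoc]
  · simp only
    rw [add_assoc]
    congr 2
    unfold ind
    congr 1
    apply propext
    constructor
    · intro h
      have := congrArg (fun x => cs.simple j * x * cs.simple j) h
      simpa [mul_assoc] using this
    · intro h
      rw [h]
      simp only [CoxeterSystem.simple_mul_simple_cancel_left, mul_assoc, CoxeterSystem.simple_mul_simple_self, mul_one]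

theorem conj_simple_pow (i j : B) (k : ℕ) (t : W) :
    (cs.simple i * cs.simple j) ^ k * t * ((cs.simple i * cs.simple j) ^ k)⁻¹ = cs.simple j ↔
      t = cs.simple j * (cs.simple i * cs.simple j) ^ (2 * k) := by
  set r := cs.simple i * cs.simple j with hr
  have hj : cs.simple j * r * cs.simple j = r⁻¹ := by
    rw [hr]; simp [mul_assoc]
  have hjk : cs.simple j * r ^ k = (r ^ k)⁻¹ * cs.simple j := by
    have h2 : (cs.simple j * r * cs.simple j) ^ k = cs.simple j * r ^ k * cs.simple j := by
      have h3 : cs.simple j * r * cs.simple j = cs.simple j * r * (cs.simple j)⁻¹ := by simp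
      rw [h3, conj_pow]
      simp
    rw [hj, inv_pow] at h2
    rw [h2]
    simp [mul_assoc]
  have h2k : cs.simple j * r ^ (2 * k) = (r ^ k)⁻¹ * cs.simple j * r ^ k := by
    rw [two_mul, pow_add, ← mul_assoc, hjk]
  rw [h2k]
  constructor
  · intro h
    rw [← h]
    group
  · intro h
    rw [h]
    group

theorem conj_simple_pow' (i j : B) (k : ℕ) (t : W) :
    (cs.simple i * cs.simple j) ^ k * t * ((cs.simple i * cs.simple j) ^ k)⁻¹ =
      cs.simple j * (cs.simple i * cs.simple j) ↔
      t = cs.simple j * (cs.simple i * cs.simple j) ^ (2 * k + 1) := by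
  set r := cs.simple i * cs.simple j with hr
  have hj : cs.simple j * r * cs.simple j = r⁻¹ := by
    rw [hr]; simp [mul_assoc]
  have hjk : cs.simple j * r ^ k = (r ^ k)⁻¹ * cs.simple j := by
    have h2 : (cs.simple j * r * cs.simple j) ^ k = cs.simple j * r ^ k * cs.simple j := by
      have h3 : cs.simple j * r * cs.simple j = cs.simple j * r * (cs.simple j)⁻¹ := by simp
      rw [h3, conj_pow]
      simp
    rw [hj, inv_pow] at h2
    rw [h2]
    simp [mul_assoc]
  have h2k : cs.simple j * r ^ (2 * k + 1) = (r ^ k)⁻¹ * (cs.simple j * r) * r ^ k := by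
    rw [two_mul, add_assoc, pow_add, ← mul_assoc, hjk, pow_succ, mul_assoc, mul_assoc, mul_assoc,
      ← pow_succ, ← pow_succ']
  rw [h2k]
  constructor
  · intro h
    rw [← h]
    group
  · intro h
    rw [h]
    group

theorem parStep_pow (i j : B) (n : ℕ) (p : W × ZMod 2) :
    ((parStep cs i * parStep cs j) ^ n) p =
      ((cs.simple i * cs.simple j) ^ n * p.1 * ((cs.simple i * cs.simple j) ^ n)⁻¹,
        p.2 + ∑ k ∈ Finset.range (2 * n),
          ind p.1 (cs.simple j * (cs.simple i * cs.simple j) ^ k)) := by
  induction n with
  | zero =>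
    have h0 : ((parStep cs i * parStep cs j) ^ 0) p = p := rfl
    rw [h0]
    simp only [pow_zero, one_mul, inv_one, mul_one, mul_zero, Finset.range_zero, Finset.sum_empty, add_zero, Prod.mk.eta]
  | succ n ih =>
    have h1 : ((parStep cs i * parStep cs j) ^ (n + 1)) p =
        (parStep cs i * parStep cs j) (((parStep cs i * parStep cs j) ^ n) p) := by
      rw [pow_succ']
      rfl
    rw [h1, ih, parStep_two]
    refine Prod.ext ?_ ?_
    · simp only
      rw [pow_succ' (cs.simple i * cs.simple j) n]
      generalize (cs.simple i * cs.simple j) ^ n = a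
      generalize cs.simple i * cs.simple j = b
      group
    · simp only
      rw [show 2 * (n + 1) = 2 * n + 1 + 1 by ring, Finset.sum_range_succ, Finset.sum_range_succ,
        add_assoc, add_assoc]
      congr 3
      · unfold ind
        congr 1
        apply propext
        exact conj_simple_pow cs i j n p.1
      · unfold ind
        congr 1
        apply propext
        exact conj_simple_pow' cs i j n p.1

theorem parStep_liftable : CoxeterMatrix.IsLiftable M (parStep cs) := by
  intro i j
  funext p
  rw [parStep_pow]
  have h1 : (1 : Function.End (W × ZMod 2)) p = p := rfl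
  rw [h1]
  refine Prod.ext ?_ ?_
  · simp
  · simp only
    rw [two_mul, Finset.sum_range_add]
    have h2 : ∀ k, ind p.1 (cs.simple j * (cs.simple i * cs.simple j) ^ (M i j + k)) =
        ind p.1 (cs.simple j * (cs.simple i * cs.simple j) ^ k) := by
      intro k
      rw [pow_add, cs.simple_mul_simple_pow, one_mul]
    simp only [h2]
    rw [CharTwo.add_self_eq_zero, add_zero]

/-- the parity action -/
noncomputable def par : W →* Function.End (W × ZMod 2) := cs.lift ⟨parStep cs, parStep_liftable cs⟩

theorem par_simple (i : B) : par cs (cs.simple i) = parStep cs i := cs.lift_apply_simple _ i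

theorem par_mul (w w' : W) (p : W × ZMod 2) : par cs (w * w') p = par cs w (par cs w' p) := by
  rw [map_mul]; rfl

theorem par_one (p : W × ZMod 2) : par cs 1 p = p := by
  rw [map_one]; rfl

open Classical in
theorem par_wordProd (ω : List B) (p : W × ZMod 2) :
    par cs (cs.wordProd ω) p = (cs.wordProd ω * p.1 * (cs.wordProd ω)⁻¹,
      p.2 + ((cs.rightInvSeq ω).count p.1 : ZMod 2)) := by
  induction ω with
  | nil => simp only [CoxeterSystem.wordProd_nil, par_one, one_mul, inv_one, mul_one, CoxeterSystem.rightInvSeq_nil, List.nodup_nil, List.count_nil, Nat.cast_zero, add_zero, Prod.mk.eta]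
  | cons i ω ih =>
    rw [cs.wordProd_cons, par_mul, ih, par_simple]
    unfold parStep
    refine Prod.ext ?_ ?_
    · simp only [mul_assoc, mul_inv_rev, CoxeterSystem.inv_simple]
    · simp only
      rw [CoxeterSystem.rightInvSeq, List.count_cons, add_assoc]
      push_cast
      congr 2
      unfold ind
      by_cases h : cs.wordProd ω * p.1 * (cs.wordProd ω)⁻¹ = cs.simple i
      · rw [if_pos h]
        have h' : ((cs.wordProd ω)⁻¹ * cs.simple i * cs.wordProd ω == p.1) = true := by
          rw [beq_iff_eq, ← h]
          group
        rw [if_pos h']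
      · rw [if_neg h]
        have h' : ¬ ((cs.wordProd ω)⁻¹ * cs.simple i * cs.wordProd ω == p.1) = true := by
          rw [beq_iff_eq]
          intro h''
          apply h
          rw [← h'']; group
        rw [if_neg h']

/-- the parity cocycle -/
noncomputable def eta (w t : W) : ZMod 2 := (par cs w (t, 0)).2

theorem par_eq (w : W) (p : W × ZMod 2) :
    par cs w p = (w * p.1 * w⁻¹, p.2 + eta cs w p.1) := by
  obtain ⟨ω, rfl⟩ := cs.wordProd_surjective w
  unfold eta
  rw [par_wordProd, par_wordProd]
  simp only [zero_add]

theorem eta_mul (w w' t : W) : eta cs (w * w') t = eta cs w' t + eta cs w (w' * t * w'⁻¹) := by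
  have h := par_mul cs w w' (t, 0)
  rw [par_eq, par_eq, par_eq] at h
  have h2 := congrArg Prod.snd h
  simpa only [zero_add] using h2

theorem eta_one (t : W) : eta cs 1 t = 0 := by
  unfold eta
  rw [par_one]

theorem eta_simple (i : B) (t : W) : eta cs (cs.simple i) t = ind t (cs.simple i) := by
  unfold eta
  rw [par_simple]
  simp [parStep]

theorem eta_self {t : W} (ht : cs.IsReflection t) : eta cs t t = 1 := by
  obtain ⟨u, i, rfl⟩ := ht
  have h1 : eta cs (u * u⁻¹) (u * cs.simple i * u⁻¹) = 0 := by rw [mul_inv_cancel, eta_one]
  rw [eta_mul] at h1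
  have e1 : u⁻¹ * (u * cs.simple i * u⁻¹) * u⁻¹⁻¹ = cs.simple i := by group
  rw [e1] at h1
  rw [eta_mul, e1, eta_mul, eta_simple, ind_self]
  have e2 : cs.simple i * cs.simple i * (cs.simple i)⁻¹ = cs.simple i := by simp
  rw [e2]
  rw [add_left_comm, h1, add_zero]

theorem eta_mul_self {t : W} (ht : cs.IsReflection t) (w : W) :
    eta cs (w * t) t = eta cs w t + 1 := by
  rw [eta_mul, eta_self cs ht]
  have : t * t * t⁻¹ = t := by group
  rw [this, add_comm]

theorem lt_of_eta_eq_one {t w : W} (h : eta cs w t = 1) : cs.length (w * t) < cs.length w := by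
  obtain ⟨ω, hω, rfl⟩ := cs.exists_isReduced w
  classical
  have h1 : ((cs.rightInvSeq ω).count t : ZMod 2) = 1 := by
    have h2 := par_wordProd cs ω (t, 0)
    have h3 := congrArg Prod.snd h2
    unfold eta at h
    rw [h] at h3
    simpa only [zero_add] using h3.symm
  have hmem : t ∈ cs.rightInvSeq ω := by
    by_contra hno
    rw [List.count_eq_zero_of_not_mem hno] at h1
    simp only [Nat.cast_zero, zero_ne_one] at h1
  exact (cs.isRightInversion_of_mem_rightInvSeq hω hmem).2

theorem lt_mul_iff_eta {t : W} (ht : cs.IsReflection t) (w : W) :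
    cs.length w < cs.length (w * t) ↔ eta cs w t = 0 := by
  constructor
  · intro h
    by_contra h0
    have h1 : eta cs w t = 1 := by
      revert h0
      generalize eta cs w t = z
      revert z
      decide
    exact absurd (lt_of_eta_eq_one cs h1) (by omega)
  · intro h
    have h1 : eta cs (w * t) t = 1 := by rw [eta_mul_self cs ht, h, zero_add]
    have h2 := lt_of_eta_eq_one cs h1
    rwa [mul_assoc, ht.mul_self, mul_one] at h2

theorem mul_lt_iff_eta {t : W} (ht : cs.IsReflection t) (w : W) :
    cs.length (w * t) < cs.length w ↔ eta cs w t = 1 := by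
  constructor
  · intro h
    by_contra h1
    have h0 : eta cs w t = 0 := by
      revert h1
      generalize eta cs w t = z
      revert z
      decide
    exact absurd ((lt_mul_iff_eta cs ht w).2 h0) (by omega)
  · exact lt_of_eta_eq_one cs


end Vale.Agent.P203.Cox
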