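import Mathlib.Algebra.Order.Archimedean.Real.Hom
import Mathlib.Analysis.SpecialFunctions.Trigonometric.Chebyshev.Basic
import Mathlib.GroupTheory.Coxeter.Inversion
import Mathlib.LinearAlgebra.Reflection
import Mathlib.Tactic

/-! P203, block COX-BASICS, part 1 (extracted from the files of P035): the geometric
representation of an arbitrary Coxeter system, positivity of roots, strong exchange.

Main names: `VSp`, `gram`, `form`, `act`, `NN` (coordinatewise nonnegative), `act_single_NN`,
`act_single_asc`, `act_single_desc`, `act_faithful`, `root`, `root_spec`, `act_root_eq_or`. -/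

set_option linter.all false

namespace Vale.Agent.P203.Cox

variable {B : Type*} {W : Type*} [Group W] {M : CoxeterMatrix B} {cs : CoxeterSystem M W}

/-- the space of the reflection representation: finitely supported functions on `B` -/
abbrev VSp (B : Type*) := B →₀ ℝ

/-- `2 B(e_i, e_j) = -2 cos(π / m_ij)`, and `-2` when `m_ij = ∞` (coded as `0` in Mathlib) -/
noncomputable def gram (M : CoxeterMatrix B) (i j : B) : ℝ :=
  if M i j = 0 then -2 else -2 * Real.cos (Real.pi / (M i j))

theorem gram_self (i : B) : gram M i i = 2 := by
  simp only [gram, CoxeterMatrix.diagonal, one_ne_zero, ↓reduceIte, Nat.cast_one, div_one, Real.cos_pi, mul_neg, mul_one, neg_neg]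

theorem gram_comm (i j : B) : gram M i j = gram M j i := by
  simp only [gram, M.symmetric i j, neg_mul]

section Datum

variable {N : Type*} [AddCommGroup N] [Module ℝ N]

theorem braid (x : B → N) (φ : B → Module.Dual ℝ N) (hφ : ∀ i j, φ i (x j) = gram M i j)
    (i j : B) : (Module.reflection ((hφ i i).trans (gram_self i)) *
      Module.reflection ((hφ j j).trans (gram_self j))) ^ (M i j) = 1 := by
  by_cases hij : i = j
  · subst hij
    rw [M.diagonal, pow_one]
    ext z
    simp only [LinearEquiv.mul_apply, Module.involutive_reflection ((hφ i i).trans (gram_self i)) z, LinearEquiv.coe_one, id_eq]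
  have hm1 : M i j ≠ 1 := M.off_diagonal i j hij
  rcases Nat.eq_zero_or_pos (M i j) with h0 | hpos
  · rw [h0, pow_zero]
  set m := M i j with hm
  have hg : gram M i j = -2 * Real.cos (Real.pi / m) := by
    simp [gram, ← hm, hpos.ne']
  have hg' : gram M j i = -2 * Real.cos (Real.pi / m) := by
    rw [gram_comm, hg]
  by_cases hm2 : m = 2
  · -- commuting case
    have c0 : gram M i j = 0 := by rw [hg, hm2]; simp
    have c0' : gram M j i = 0 := by rw [gram_comm, c0]
    rw [hm2]
    ext z
    have e1 : φ i (x j) = 0 := by rw [hφ, c0]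
    have e2 : φ j (x i) = 0 := by rw [hφ, c0']
    have e3 : φ i (x i) = 2 := by rw [hφ, gram_self]
    have e4 : φ j (x j) = 2 := by rw [hφ, gram_self]
    simp only [pow_two, LinearEquiv.mul_apply, Module.reflection_apply, map_sub, map_smul, e1, e2,
      e3, e4, LinearEquiv.coe_one, id]
    module
  have hm3 : 3 ≤ m := by omega
  have hmR : (3 : ℝ) ≤ m := by exact_mod_cast hm3
  set θ : ℝ := 2 * Real.pi / m with hθ
  have hpi := Real.pi_pos
  have hθpos : 0 < θ := by positivity
  have hθlt : θ < Real.pi := by
    rw [hθ, div_lt_iff₀ (by linarith only [hmR])]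
    nlinarith only [hpi, hmR]
  have hsin : Real.sin θ ≠ 0 := (Real.sin_pos_of_pos_of_lt_pi hθpos hθlt).ne'
  have ht : (2 * Real.cos θ) = φ i (x j) * φ j (x i) - 2 := by
    rw [hφ, hφ, hg, hg']
    have : θ = 2 * (Real.pi / m) := by rw [hθ]; ring
    rw [this, Real.cos_two_mul]
    ring
  have hS : ∀ k : ℤ, (Polynomial.Chebyshev.S ℝ k).eval (2 * Real.cos θ) * Real.sin θ =
      Real.sin ((k + 1) * θ) := fun k => Polynomial.Chebyshev.S_two_mul_real_cos θ k
  ext z
  rw [Module.reflection_mul_reflection_pow_apply _ _ m z (2 * Real.cos θ) ht]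
  rcases Nat.even_or_odd' m with ⟨k, hk | hk⟩
  · -- m = 2k
    have hkR : (m : ℝ) = 2 * k := by exact_mod_cast hk
    have e1 : ((m : ℤ) - 2) / 2 = (k : ℤ) - 1 := by (clear * - hk; omega)
    have e2 : ((m : ℤ) - 1) / 2 = (k : ℤ) - 1 := by omega
    have hz : (Polynomial.Chebyshev.S ℝ ((k : ℤ) - 1)).eval (2 * Real.cos θ) = 0 := by
      have h := hS ((k : ℤ) - 1)
      have h2 : (((k : ℤ) - 1 : ℤ) + 1 : ℝ) * θ = Real.pi := by
        push_cast
        rw [hθ, hkR]
        have : (k : ℝ) ≠ 0 := by
          have : (0 : ℝ) < 2 * k := by rw [← hkR]; linarith only [hmR]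
          intro h; rw [h] at this; simp at this
        field_simp
        ring
      rw [h2, Real.sin_pi] at h
      exact (mul_eq_zero.mp h).resolve_right hsin
    rw [e1, e2, hz]
    simp only [zero_add, zero_mul, zero_smul, add_zero, LinearEquiv.coe_one, id_eq]
  · have hkR : (m : ℝ) = 2 * k + 1 := by exact_mod_cast hk
    have e1 : ((m : ℤ) - 2) / 2 = (k : ℤ) - 1 := by omega
    have e2 : ((m : ℤ) - 1) / 2 = (k : ℤ) := by omega
    have e3 : ((m : ℤ) - 3) / 2 = (k : ℤ) - 1 := by omega
    have e4 : ((m : ℤ)) / 2 = (k : ℤ) := by omega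
    have hz : (Polynomial.Chebyshev.S ℝ (k : ℤ)).eval (2 * Real.cos θ) +
        (Polynomial.Chebyshev.S ℝ ((k : ℤ) - 1)).eval (2 * Real.cos θ) = 0 := by
      have h := hS (k : ℤ)
      have h' := hS ((k : ℤ) - 1)
      have h2 : Real.sin (((k : ℤ) + 1 : ℝ) * θ) + Real.sin ((((k : ℤ) - 1 : ℤ) + 1 : ℝ) * θ)
          = 0 := by
        push_cast
        have a1 : ((k : ℝ) + 1) * θ = Real.pi + θ / 2 := by
          rw [hθ, hkR]
          have : (2 * (k : ℝ) + 1) ≠ 0 := by (clear * -; positivity)
          field_simp
          ring
        have a2 : ((k : ℝ) - 1 + 1) * θ = Real.pi - θ / 2 := by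
          rw [hθ, hkR]
          have : (2 * (k : ℝ) + 1) ≠ 0 := by (clear * -; positivity)
          field_simp
          ring
        rw [a1, a2, Real.sin_pi_sub, add_comm Real.pi, Real.sin_add_pi]
        ring
      rw [← h, ← h', ← add_mul] at h2
      exact (mul_eq_zero.mp h2).resolve_right hsin
    rw [e1, e2, e3, e4, hz]
    simp only [mul_zero, zero_smul, add_zero, LinearEquiv.coe_one, id_eq]

theorem braid_liftable (x : B → N) (φ : B → Module.Dual ℝ N)
    (hφ : ∀ i j, φ i (x j) = gram M i j) :
    M.IsLiftable (fun i => Module.reflection ((hφ i i).trans (gram_self i))) :=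
  braid x φ hφ

/-- the representation attached to a root datum -/
noncomputable def repD (cs : CoxeterSystem M W) (x : B → N) (φ : B → Module.Dual ℝ N)
    (hφ : ∀ i j, φ i (x j) = gram M i j) : W →* (N ≃ₗ[ℝ] N) :=
  cs.lift ⟨fun i => Module.reflection ((hφ i i).trans (gram_self i)), braid_liftable x φ hφ⟩

theorem repD_simple (x : B → N) (φ : B → Module.Dual ℝ N)
    (hφ : ∀ i j, φ i (x j) = gram M i j) (i : B) (v : N) :
    repD cs x φ hφ (cs.simple i) v = v - (φ i v) • x i := by
  rw [repD, cs.lift_apply_simple (braid_liftable x φ hφ), Module.reflection_apply]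

end Datum

/-- twice the bilinear form -/
noncomputable def form (M : CoxeterMatrix B) : VSp B →ₗ[ℝ] VSp B →ₗ[ℝ] ℝ :=
  Finsupp.lsum ℝ fun i => (LinearMap.toSpanSingleton ℝ _
    (Finsupp.lsum ℝ fun j => LinearMap.toSpanSingleton ℝ ℝ (gram M i j)))

theorem form_single (i j : B) (a b : ℝ) :
    form M (Finsupp.single i a) (Finsupp.single j b) = a * b * gram M i j := by
  simp only [form, Finsupp.coe_lsum, LinearMap.toSpanSingleton_apply, zero_smul, Finsupp.sum_single_index, LinearMap.smul_apply, smul_eq_mul, zero_mul, mul_assoc]

theorem form_comm (v v' : VSp B) : form M v v' = form M v' v := by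
  induction v using Finsupp.induction_linear with
  | zero => simp only [map_zero, LinearMap.zero_apply]
  | add f g hf hg => simp only [map_add, LinearMap.add_apply, hf, hg]
  | single i a =>
    induction v' using Finsupp.induction_linear with
    | zero => simp only [map_zero, LinearMap.zero_apply]
    | add f g hf hg => simp only [map_add, hf, hg, LinearMap.add_apply]
    | single j b => rw [form_single, form_single, gram_comm i j]; ring

theorem datum_act (i j : B) : form M (Finsupp.single i 1) (Finsupp.single j 1) = gram M i j := by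
  rw [form_single]; ring

/-- the reflection representation, characterized by `act_simple` -/
noncomputable def act (cs : CoxeterSystem M W) : W →* Module.End ℝ (VSp B) :=
  LinearEquiv.automorphismGroup.toLinearMapMonoidHom.comp
    (repD cs (fun i => Finsupp.single i 1) (fun i => form M (Finsupp.single i 1)) datum_act)

theorem act_simple (i : B) (v : VSp B) :
    act cs (cs.simple i) v = v - (form M (Finsupp.single i 1) v) • Finsupp.single i 1 := by
  exact repD_simple _ _ _ i v

theorem act_mul_apply (w w' : W) (v : VSp B) : act cs (w * w') v = act cs w (act cs w' v) := by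
  rw [map_mul]; rfl

theorem act_one_apply (v : VSp B) : act cs 1 v = v := by
  rw [map_one]; rfl

theorem act_inv_apply_self (w : W) (v : VSp B) : act cs w⁻¹ (act cs w v) = v := by
  rw [← act_mul_apply, inv_mul_cancel, act_one_apply]

theorem act_self_inv_apply (w : W) (v : VSp B) : act cs w (act cs w⁻¹ v) = v := by
  rw [← act_mul_apply, mul_inv_cancel, act_one_apply]

theorem act_simple_self (i : B) :
    act cs (cs.simple i) (Finsupp.single i 1) = - Finsupp.single i 1 := by
  rw [act_simple, datum_act, gram_self, two_smul]
  abel

theorem form_act (w : W) (v v' : VSp B) : form M (act cs w v) (act cs w v') = form M v v' := by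
  induction w using cs.simple_induction_left generalizing v v' with
  | one => rw [act_one_apply, act_one_apply]
  | mul_simple_left w i ih =>
    rw [act_mul_apply, act_mul_apply, act_simple, act_simple]
    simp only [map_sub, map_smul, LinearMap.sub_apply, LinearMap.smul_apply, ih, datum_act,
      gram_self, smul_eq_mul]
    rw [form_comm (act cs w v) (Finsupp.single i 1)]
    ring

/-! ### Positivity -/

/-- the sequence `a_0 = 0, a_1 = 1, a_{k+2} = κ a_{k+1} - a_k` -/
noncomputable def chs (κ : ℝ) : ℕ → ℝ
  | 0 => 0
  | 1 => 1
  | k + 2 => κ * chs κ (k + 1) - chs κ k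

theorem chs_zero (κ : ℝ) : chs κ 0 = 0 := by simp only [chs]
theorem chs_one (κ : ℝ) : chs κ 1 = 1 := by simp only [chs]
theorem chs_add_two (κ : ℝ) (k : ℕ) : chs κ (k + 2) = κ * chs κ (k + 1) - chs κ k := by
  simp only [chs]

theorem chs_two_eq (k : ℕ) : chs 2 k = k := by
  induction k using Nat.twoStepInduction with
  | zero => simp [chs_zero]
  | one => simp [chs_one]
  | more k h1 h2 => rw [chs_add_two, h1, h2]; push_cast; ring

theorem chs_cos (θ : ℝ) (k : ℕ) : chs (2 * Real.cos θ) k * Real.sin θ = Real.sin (k * θ) := by
  induction k using Nat.twoStepInduction with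
  | zero => simp [chs_zero]
  | one => simp [chs_one]
  | more k h1 h2 =>
    rw [chs_add_two, sub_mul, h1, mul_assoc, h2]
    have a1 : ((k + 2 : ℕ) : ℝ) * θ = ((k + 1 : ℕ) : ℝ) * θ + θ := by push_cast; ring
    have a2 : (k : ℝ) * θ = ((k + 1 : ℕ) : ℝ) * θ - θ := by push_cast; ring
    rw [a1, a2, Real.sin_add, Real.sin_sub]
    ring

theorem chs_nonneg {i j : B} {k : ℕ} (hk : M i j = 0 ∨ k ≤ M i j) (hij : i ≠ j) :
    0 ≤ chs (-gram M i j) k := by
  by_cases h0 : M i j = 0
  · have : -gram M i j = 2 := by simp [gram, h0]
    rw [this, chs_two_eq]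
    (clear * -; positivity)
  · have hk' : k ≤ M i j := hk.resolve_left h0
    have hm1 : M i j ≠ 1 := M.off_diagonal i j hij
    have hm2 : 2 ≤ M i j := by omega
    have hmR : (2 : ℝ) ≤ M i j := by exact_mod_cast hm2
    have hg : -gram M i j = 2 * Real.cos (Real.pi / M i j) := by simp [gram, h0]
    have hpi := Real.pi_pos
    have hθpos : 0 < Real.pi / M i j := by positivity
    have hθlt : Real.pi / M i j < Real.pi := by
      rw [div_lt_iff₀ (by linarith only [hmR])]
      nlinarith only [hpi, hmR]
    have hsin := Real.sin_pos_of_pos_of_lt_pi hθpos hθlt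
    have h := chs_cos (Real.pi / M i j) k
    rw [hg]
    have hle : (k : ℝ) * (Real.pi / M i j) ≤ Real.pi := by
      have : (k : ℝ) ≤ M i j := by exact_mod_cast hk'
      rw [mul_div_assoc', div_le_iff₀ (by linarith only [hmR]), mul_comm]
      nlinarith only [hpi, this]
    have h2 : 0 ≤ Real.sin (k * (Real.pi / M i j)) :=
      Real.sin_nonneg_of_nonneg_of_le_pi (by (clear * - h0; positivity)) hle
    rw [← h] at h2
    exact nonneg_of_mul_nonneg_left h2 hsin

theorem act_alternatingWord (i j : B) (k : ℕ) :
    act cs (cs.wordProd (CoxeterSystem.alternatingWord i j k)) (Finsupp.single i 1) =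
      if Even k then chs (-gram M i j) (k + 1) • Finsupp.single i 1 +
          chs (-gram M i j) k • Finsupp.single j 1
      else chs (-gram M i j) k • Finsupp.single i 1 +
          chs (-gram M i j) (k + 1) • Finsupp.single j 1 := by
  induction k with
  | zero =>
    simp only [CoxeterSystem.alternatingWord, CoxeterSystem.wordProd_nil, map_one, Module.End.one_apply, Even.zero, ↓reduceIte, zero_add, chs_one, one_smul, chs_zero, zero_smul, add_zero]
  | succ k ih =>
    rw [CoxeterSystem.alternatingWord_succ', cs.wordProd_cons, act_mul_apply, ih]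
    by_cases hk : Even k
    · have hk1 : ¬ Even (k + 1) := by simpa only [Nat.even_add_one, Nat.not_even_iff_odd, Nat.not_odd_iff_even] using hk
      rw [if_pos hk, if_pos hk, if_neg hk1, act_simple]
      simp only [map_add, map_smul, datum_act, gram_self, smul_eq_mul]
      rw [chs_add_two, gram_comm j i]
      module
    · have hk1 : Even (k + 1) := by simpa only [Nat.even_add_one, Nat.not_even_iff_odd] using hk
      rw [if_neg hk, if_neg hk, if_pos hk1, act_simple]
      simp only [map_add, map_smul, datum_act, gram_self, smul_eq_mul]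
      rw [chs_add_two]
      module

/-- coordinatewise nonnegativity -/
def NN (v : VSp B) : Prop := ∀ i, 0 ≤ v i

theorem NN.add {v w : VSp B} (hv : NN v) (hw : NN w) : NN (v + w) := fun i => by
  simpa only [Finsupp.coe_add, Pi.add_apply] using add_nonneg (hv i) (hw i)

theorem NN.smul {v : VSp B} (hv : NN v) {a : ℝ} (ha : 0 ≤ a) : NN (a • v) := fun i => by
  simpa only [Finsupp.coe_smul, Pi.smul_apply, smul_eq_mul] using mul_nonneg ha (hv i)

theorem NN_single (i : B) : NN (Finsupp.single i (1 : ℝ)) := fun j => by
  classical
  rw [Finsupp.single_apply]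
  split_ifs <;> norm_num

theorem eq_zero_of_NN {v : VSp B} (h : NN v) (h' : NN (-v)) : v = 0 := by
  ext i
  have h1 := h i
  have h2 := h' i
  simp only [Finsupp.coe_neg, Pi.neg_apply] at h2
  simp only [Finsupp.coe_zero, Pi.zero_apply]
  linarith only [h1, h2]

theorem act_single_NN (n : ℕ) : ∀ (w : W) (i : B), cs.length w = n →
    cs.length w < cs.length (w * cs.simple i) → NN (act cs w (Finsupp.single i 1)) := by
  induction n using Nat.strong_induction_on with
  | _ n ih =>
  intro w i hn hi
  by_cases hw : w = 1
  · subst hw
    rw [act_one_apply]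
    exact NN_single i
  obtain ⟨j, hj⟩ := cs.exists_rightDescent_of_ne_one hw
  unfold CoxeterSystem.IsRightDescent at hj
  have hij : i ≠ j := by rintro rfl; omega
  set alt : ℕ → W := fun k => cs.wordProd (CoxeterSystem.alternatingWord i j k) with halt
  have halt_len : ∀ k, cs.length (alt k) ≤ k := fun k => by
    have := cs.length_wordProd_le (CoxeterSystem.alternatingWord i j k)
    rwa [CoxeterSystem.length_alternatingWord] at this
  set D : Set ℕ := {k | cs.length (w * (alt k)⁻¹) + k = cs.length w} with hD
  have hDb : ∀ k ∈ D, k ≤ cs.length w := fun k hk => by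
    simp only [hD, Set.mem_ofPred_eq] at hk; omega
  have hsucc : ∀ k, alt (k + 1) = cs.simple (if Even k then j else i) * alt k := fun k => by
    simp only [halt]
    rw [CoxeterSystem.alternatingWord_succ', cs.wordProd_cons]
  have h1 : 1 ∈ D := by
    simp only [hD, Set.mem_ofPred_eq]
    have : alt 1 = cs.simple j := by
      rw [hsucc 0]; simp only [Even.zero, ↓reduceIte, halt, CoxeterSystem.alternatingWord, CoxeterSystem.wordProd_nil, mul_one]
    rw [this, cs.inv_simple]
    rcases cs.length_mul_simple w j with h | h <;> omega
  obtain ⟨k, hkD, hkmax⟩ : ∃ k ∈ D, ∀ k' ∈ D, k' ≤ k := by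
    have hfin : D.Finite := (Set.finite_Iic (cs.length w)).subset hDb
    obtain ⟨k, hk, hk'⟩ := hfin.exists_maximalFor id D ⟨1, h1⟩
    refine ⟨k, hk, fun k' hk1 => ?_⟩
    by_contra hlt
    have := hk' hk1 (by simp; omega)
    simp at this
    omega
  have hk1 : 1 ≤ k := hkmax 1 h1
  set v : W := w * (alt k)⁻¹ with hv
  have hvl : cs.length v + k = cs.length w := hkD
  have hw_eq : w = v * alt k := by rw [hv]; simp
  -- the two ascents of v
  have hx : cs.length v < cs.length (v * cs.simple (if Even k then j else i)) := by
    by_contra hcon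
    have hlt : cs.length (v * cs.simple (if Even k then j else i)) + 1 = cs.length v := by
      rcases cs.length_mul_simple v (if Even k then j else i) with h | h <;> omega
    have : k + 1 ∈ D := by
      simp only [hD, Set.mem_ofPred_eq]
      rw [hsucc k, mul_inv_rev, cs.inv_simple, ← mul_assoc, ← hv]
      omega
    have := hkmax _ this
    omega
  obtain ⟨k', rfl⟩ : ∃ k', k = k' + 1 := ⟨k - 1, by omega⟩
  have hy : cs.length v < cs.length (v * cs.simple (if Even k' then j else i)) := by
    have e1 : v * cs.simple (if Even k' then j else i) = w * (alt k')⁻¹ := by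
      rw [hv, hsucc k', mul_inv_rev, cs.inv_simple, ← mul_assoc, mul_assoc _ (cs.simple _)]
      simp only [CoxeterSystem.simple_mul_simple_self, mul_one]
    have e2 := cs.length_le_length_mul_add_right (w * (alt k')⁻¹) (alt k')
    have e3 : cs.length w ≤ cs.length (w * (alt k')⁻¹) + cs.length (alt k') := by
      have := cs.length_mul_le (w * (alt k')⁻¹) (alt k')
      simpa only [ge_iff_le, inv_mul_cancel_right] using this
    have e4 := halt_len k'
    rw [e1]
    omega
  -- both generators
  have hi' : cs.length v < cs.length (v * cs.simple i) ∧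
      cs.length v < cs.length (v * cs.simple j) := by
    by_cases hk : Even k'
    · have : ¬ Even (k' + 1) := by simpa only [Nat.even_add_one, Nat.not_even_iff_odd, Nat.not_odd_iff_even] using hk
      rw [if_neg this] at hx
      rw [if_pos hk] at hy
      exact ⟨hx, hy⟩
    · have : Even (k' + 1) := by simpa only [Nat.even_add_one, Nat.not_even_iff_odd] using hk
      rw [if_pos this] at hx
      rw [if_neg hk] at hy
      exact ⟨hy, hx⟩
  have hvn : cs.length v < n := by omega
  have p1 := ih (cs.length v) hvn v i rfl hi'.1
  have p2 := ih (cs.length v) hvn v j rfl hi'.2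
  -- bound on k
  have hb : M i j = 0 ∨ k' + 1 + 1 ≤ M i j := by
    by_contra hcon
    push Not at hcon
    obtain ⟨hM0, hlt⟩ := hcon
    have hred : cs.IsReduced (CoxeterSystem.alternatingWord i j (k' + 1)) := by
      unfold CoxeterSystem.IsReduced
      rw [CoxeterSystem.length_alternatingWord]
      apply le_antisymm (halt_len (k' + 1))
      have := cs.length_mul_le v (alt (k' + 1))
      rw [← hw_eq] at this
      simp only [halt] at this ⊢
      omega
    have hle : k' + 1 ≤ M i j := by
      by_contra hgt
      exact cs.not_isReduced_alternatingWord i j hM0 (by omega) hred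
    have hkM : k' + 1 = M i j := by omega
    have e1 : alt (k' + 1) * cs.simple i =
        cs.wordProd (CoxeterSystem.alternatingWord j i (k' + 2)) := by
      simp only [halt]
      rw [CoxeterSystem.alternatingWord_succ j i (k' + 1), cs.wordProd_concat]
    have e2 : cs.wordProd (CoxeterSystem.alternatingWord j i (k' + 2)) =
        cs.wordProd (CoxeterSystem.alternatingWord i j (M i j * 2 - (k' + 2))) := by
      have h3 := cs.prod_alternatingWord_eq_prod_alternatingWord_sub j i (k' + 2)
        (by rw [M.symmetric j i]; omega)
      rw [M.symmetric j i] at h3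
      exact h3
    have e3 : cs.length (w * cs.simple i) ≤ cs.length v + k' := by
      rw [hw_eq, mul_assoc, e1, e2]
      refine (cs.length_mul_le _ _).trans ?_
      have := halt_len (M i j * 2 - (k' + 2))
      simp only [halt] at this
      (clear * - hk1 hlt hle this; omega)
    omega
  have c1 : 0 ≤ chs (-gram M i j) (k' + 1 + 1) := chs_nonneg hb hij
  have c2 : 0 ≤ chs (-gram M i j) (k' + 1) :=
    chs_nonneg (hb.imp id (fun h => by omega)) hij
  rw [hw_eq, act_mul_apply]
  simp only [halt]
  rw [act_alternatingWord]
  split_ifs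
  · rw [map_add, map_smul, map_smul]
    exact (p1.smul c1).add (p2.smul c2)
  · rw [map_add, map_smul, map_smul]
    exact (p1.smul c2).add (p2.smul c1)

end Vale.Agent.P203.Cox

namespace Vale.Agent.P203.Cox

variable {B : Type*} {W : Type*} [Group W] {M : CoxeterMatrix B} {cs : CoxeterSystem M W}

theorem act_faithful {w : W} (h : ∀ v, act cs w v = v) : w = 1 := by
  by_contra hw
  obtain ⟨j, hj⟩ := cs.exists_rightDescent_of_ne_one hw
  unfold CoxeterSystem.IsRightDescent at hj
  have h1 : NN (act cs (w * cs.simple j) (Finsupp.single j 1)) := by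
    refine act_single_NN (cs := cs) _ (w * cs.simple j) j rfl ?_
    rwa [cs.simple_mul_simple_cancel_right]
  rw [act_mul_apply, act_simple_self, h] at h1
  have h2 := eq_zero_of_NN (NN_single j) h1
  have h3 := congrArg (fun v => v j) h2
  simp at h3

theorem exists_pos_root {t : W} (ht : cs.IsReflection t) :
    ∃ w i, t = w * cs.simple i * w⁻¹ ∧ NN (act cs w (Finsupp.single i 1)) := by
  obtain ⟨w, i, rfl⟩ := ht
  by_cases h : cs.length w < cs.length (w * cs.simple i)
  · exact ⟨w, i, rfl, act_single_NN _ w i rfl h⟩
  · refine ⟨w * cs.simple i, i, ?_, act_single_NN _ _ i rfl ?_⟩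
    · simp only [mul_assoc, CoxeterSystem.simple_mul_simple_self, mul_one, mul_inv_rev, CoxeterSystem.inv_simple]
    · rw [cs.simple_mul_simple_cancel_right]
      rcases cs.length_mul_simple w i with h' | h' <;> omega

open Classical in
/-- the positive root attached to a reflection (junk value `0` for non-reflections) -/
noncomputable def root (cs : CoxeterSystem M W) (t : W) : VSp B :=
  if h : cs.IsReflection t then
    act cs (exists_pos_root h).choose (Finsupp.single (exists_pos_root h).choose_spec.choose 1)
  else 0

theorem root_spec {t : W} (ht : cs.IsReflection t) :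
    ∃ w i, t = w * cs.simple i * w⁻¹ ∧ root cs t = act cs w (Finsupp.single i 1) ∧
      NN (root cs t) := by
  have h := (exists_pos_root ht).choose_spec.choose_spec
  refine ⟨_, _, h.1, ?_, ?_⟩
  · rw [root, dif_pos ht]
  · rw [root, dif_pos ht]
    exact h.2

theorem root_NN (t : W) : NN (root cs t) := by
  by_cases ht : cs.IsReflection t
  · obtain ⟨_, _, _, _, h⟩ := root_spec ht
    exact h
  · rw [root, dif_neg ht]
    intro i
    simp

theorem root_nonneg (t : W) (i : B) : 0 ≤ root cs t i := root_NN t i

theorem form_root_self {t : W} (ht : cs.IsReflection t) :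
    form M (root cs t) (root cs t) = 2 := by
  obtain ⟨w, i, _, h, _⟩ := root_spec ht
  rw [h, form_act, datum_act, gram_self]

theorem root_ne_zero {t : W} (ht : cs.IsReflection t) : root cs t ≠ 0 := by
  intro h
  have := form_root_self ht
  rw [h] at this
  simp at this

theorem act_conj (w : W) (i : B) (v : VSp B) : act cs (w * cs.simple i * w⁻¹) v =
    v - (form M (act cs w (Finsupp.single i 1)) v) • act cs w (Finsupp.single i 1) := by
  rw [mul_assoc, act_mul_apply, act_mul_apply, act_simple, map_sub, map_smul, act_self_inv_apply]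
  congr 2
  rw [← form_act w (Finsupp.single i 1) (act cs w⁻¹ v), act_self_inv_apply]

/-- `t` acts as the reflection in its root -/
theorem act_reflection {t : W} (ht : cs.IsReflection t) (v : VSp B) :
    act cs t v = v - (form M (root cs t) v) • root cs t := by
  obtain ⟨w, i, h1, h2, _⟩ := root_spec ht
  rw [h2]
  conv_lhs => rw [h1]
  exact act_conj w i v

theorem act_root_self {t : W} (ht : cs.IsReflection t) :
    act cs t (root cs t) = - root cs t := by
  rw [act_reflection ht, form_root_self ht, two_smul]
  abel

theorem act_single_eq_or {w : W} {i : B} :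
    act cs w (Finsupp.single i 1) = root cs (w * cs.simple i * w⁻¹) ∨
    act cs w (Finsupp.single i 1) = - root cs (w * cs.simple i * w⁻¹) := by
  have ht : cs.IsReflection (w * cs.simple i * w⁻¹) := ⟨w, i, rfl⟩
  set r := root cs (w * cs.simple i * w⁻¹) with hr
  set a := act cs w (Finsupp.single i 1) with ha
  have haa : form M a a = 2 := by rw [ha, form_act, datum_act, gram_self]
  have hrr : form M r r = 2 := form_root_self ht
  have h1 : a - (form M a a) • a = a - (form M r a) • r := by
    rw [ha, ← act_conj w i, hr, ← act_reflection ht]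
  rw [haa] at h1
  have h2 : a = (form M r a / 2) • r := by
    have : (2 : ℝ) • a = (form M r a) • r := by
      have := congrArg (fun x => a - x) h1
      simpa only [sub_sub_cancel] using this
    rw [div_eq_inv_mul, mul_smul, ← this, smul_smul]
    norm_num
  set c := form M r a / 2 with hc
  have h3 : c * c = 1 := by
    have : form M a a = c * (c * form M r r) := by
      conv_lhs => rw [h2]
      simp
    rw [haa, hrr] at this
    linarith only [this]
  rcases mul_self_eq_one_iff.mp h3 with h4 | h4
  · left; rw [h2, h4, one_smul]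
  · right; rw [h2, h4, neg_smul, one_smul]

theorem act_single_of_NN {w : W} {i : B} (h : NN (act cs w (Finsupp.single i 1))) :
    act cs w (Finsupp.single i 1) = root cs (w * cs.simple i * w⁻¹) := by
  rcases act_single_eq_or (cs := cs) (w := w) (i := i) with h' | h'
  · exact h'
  · exfalso
    rw [h'] at h
    have ht : cs.IsReflection (w * cs.simple i * w⁻¹) := ⟨w, i, rfl⟩
    exact root_ne_zero ht (eq_zero_of_NN (root_NN _) h)

theorem root_simple (i : B) : root cs (cs.simple i) = Finsupp.single i 1 := by
  have h := act_single_of_NN (cs := cs) (w := 1) (i := i)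
    (by rw [act_one_apply]; exact NN_single i)
  rw [act_one_apply] at h
  simpa using h.symm

theorem act_root_eq_or (x : W) {t : W} (ht : cs.IsReflection t) :
    act cs x (root cs t) = root cs (x * t * x⁻¹) ∨
    act cs x (root cs t) = - root cs (x * t * x⁻¹) := by
  obtain ⟨w, i, h1, h2, _⟩ := root_spec ht
  have := act_single_eq_or (cs := cs) (w := x * w) (i := i)
  have e : x * w * cs.simple i * (x * w)⁻¹ = x * t * x⁻¹ := by rw [h1]; group
  rw [e, act_mul_apply, ← h2] at this
  exact this

theorem act_root_of_NN {x t : W} (ht : cs.IsReflection t) (h : NN (act cs x (root cs t))) :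
    act cs x (root cs t) = root cs (x * t * x⁻¹) := by
  rcases act_root_eq_or x ht with h' | h'
  · exact h'
  · exfalso
    rw [h'] at h
    exact root_ne_zero (ht.conj x) (eq_zero_of_NN (root_NN _) h)

theorem root_inj {t t' : W} (ht : cs.IsReflection t) (ht' : cs.IsReflection t')
    (h : root cs t = root cs t') : t = t' := by
  have h1 : t * t' = 1 := by
    apply act_faithful (cs := cs)
    intro v
    rw [act_mul_apply, act_reflection ht, h, ← act_reflection ht', ← act_mul_apply, ht'.mul_self,
      act_one_apply]
  rw [← ht'.inv]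
  exact eq_inv_of_mul_eq_one_left h1

theorem act_root_NN_aux (n : ℕ) : ∀ (x t : W), cs.length x = n → cs.IsReflection t →
    cs.length x < cs.length (x * t) → NN (act cs x (root cs t)) := by
  induction n with
  | zero =>
    intro x t hx _ _
    rw [cs.length_eq_zero_iff] at hx
    subst hx
    rw [act_one_apply]
    exact root_NN t
  | succ n ih =>
    intro x t hx ht hlt
    have hx1 : x ≠ 1 := by rintro rfl; simp at hx
    obtain ⟨j, hj⟩ := cs.exists_leftDescent_of_ne_one hx1
    unfold CoxeterSystem.IsLeftDescent at hj
    have hj' : cs.length (cs.simple j * x) + 1 = cs.length x := by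
      rcases cs.length_simple_mul x j with h | h <;> omega
    have h1 : cs.length (x * t) ≤ cs.length (cs.simple j * x * t) + 1 := by
      rw [mul_assoc]
      rcases cs.length_simple_mul (x * t) j with h | h <;> omega
    have hb := ih (cs.simple j * x) t (by omega) ht (by omega)
    by_contra hcon
    set b := act cs (cs.simple j * x) (root cs t) with hbdef
    have hx' : act cs x (root cs t) = act cs (cs.simple j) b := by
      rw [hbdef, act_mul_apply, ← act_mul_apply (cs.simple j), cs.simple_mul_simple_self,
        act_one_apply]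
    have hneg : NN (-(act cs x (root cs t))) := by
      rcases act_root_eq_or x ht with h' | h'
      · exfalso; apply hcon; rw [h']; exact root_NN _
      · rw [h', neg_neg]; exact root_NN _
    rw [hx', act_simple] at hneg
    have hbj : b = b j • Finsupp.single j (1 : ℝ) := by
      ext k
      by_cases hk : k = j
      · subst hk; simp
      · have e1 := hb k
        have e2 := hneg k
        simp only [Finsupp.coe_neg, Pi.neg_apply, Finsupp.coe_sub, Pi.sub_apply,
          Finsupp.coe_smul, Pi.smul_apply, smul_eq_mul] at e2
        rw [Finsupp.single_eq_of_ne hk] at e2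
        simp only [Finsupp.coe_smul, Pi.smul_apply, smul_eq_mul]
        rw [Finsupp.single_eq_of_ne hk]
        linarith only [e1, e2]
    have hbb : form M b b = 2 := by rw [hbdef, form_act, form_root_self ht]
    have hb1 : b j = 1 := by
      rw [hbj] at hbb
      simp only [map_smul, LinearMap.smul_apply, datum_act, gram_self, smul_eq_mul] at hbb
      have h0 := hb j
      nlinarith only [hbb, h0]
    rw [hb1, one_smul, ← root_simple (cs := cs) j] at hbj
    have hbr : b = root cs (cs.simple j * x * t * (cs.simple j * x)⁻¹) :=
      act_root_of_NN ht hb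
    have heq := root_inj ((ht.conj (cs.simple j * x))) (cs.isReflection_simple j)
      (hbr.symm.trans hbj)
    have h2 : x * t = cs.simple j * x := by
      have : cs.simple j * x * t * (cs.simple j * x)⁻¹ = cs.simple j := heq
      rw [mul_inv_eq_iff_eq_mul] at this
      have h3 : cs.simple j * (x * t) = cs.simple j * (cs.simple j * x) := by
        rw [← mul_assoc, this]
      exact mul_left_cancel h3
    rw [h2] at hlt
    omega

/-- `x α_t > 0` if `x < x t` -/
theorem act_root_of_lt {x t : W} (ht : cs.IsReflection t)
    (h : cs.length x < cs.length (x * t)) : act cs x (root cs t) = root cs (x * t * x⁻¹) :=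
  act_root_of_NN ht (act_root_NN_aux _ x t rfl ht h)

/-- `x α_t < 0` if `x t < x` -/
theorem act_root_of_gt {x t : W} (ht : cs.IsReflection t)
    (h : cs.length (x * t) < cs.length x) : act cs x (root cs t) = - root cs (x * t * x⁻¹) := by
  have h1 : cs.length (x * t) < cs.length (x * t * t) := by
    rw [mul_assoc, ht.mul_self, mul_one]; exact h
  have h2 := act_root_of_lt ht h1
  rw [act_mul_apply, act_root_self ht, map_neg] at h2
  have e : x * t * t * (x * t)⁻¹ = x * t * x⁻¹ := by
    rw [mul_inv_rev, ht.inv, mul_assoc x t t, ht.mul_self, mul_one, mul_assoc]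
  rw [e] at h2
  rw [← h2, neg_neg]

/-- distinct reflections have non-proportional roots -/
theorem root_indep {t t' : W} (ht : cs.IsReflection t) (ht' : cs.IsReflection t')
    (hne : t ≠ t') {a b : ℝ} (h : a • root cs t + b • root cs t' = 0) : a = 0 ∧ b = 0 := by
  have ha : a = 0 := by
    by_contra ha
    have h1 : root cs t = (-(b / a)) • root cs t' := by
      have h2 : a • root cs t = (-b) • root cs t' := by
        rw [neg_smul]; exact eq_neg_of_add_eq_zero_left h
      have h3 := congrArg (fun v => a⁻¹ • v) h2
      simp only [smul_smul, inv_mul_cancel₀ ha, one_smul] at h3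
      rw [h3]; congr 1; (clear * - ha; field_simp)
    set c := -(b / a) with hc
    have h4 : c * c = 1 := by
      have e1 := form_root_self ht
      rw [h1] at e1
      simp only [map_smul, LinearMap.smul_apply, form_root_self ht', smul_eq_mul] at e1
      linarith only [e1]
    rcases mul_self_eq_one_iff.mp h4 with h5 | h5
    · rw [h5, one_smul] at h1
      exact hne (root_inj ht ht' h1)
    · rw [h5, neg_smul, one_smul] at h1
      have h6 := root_NN (cs := cs) t
      rw [h1] at h6
      exact root_ne_zero ht' (eq_zero_of_NN (root_NN _) h6)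
  refine ⟨ha, ?_⟩
  rw [ha, zero_smul, zero_add] at h
  exact (smul_eq_zero.mp h).resolve_right (root_ne_zero ht')

theorem isRefl_conj_simple (y : W) (i : B) : cs.IsReflection (y * cs.simple i * y⁻¹) :=
  ⟨y, i, rfl⟩

theorem act_single_asc {y : W} {i : B} (h : cs.length y < cs.length (y * cs.simple i)) :
    act cs y (Finsupp.single i 1) = root cs (y * cs.simple i * y⁻¹) :=
  act_single_of_NN (act_single_NN _ y i rfl h)

theorem act_single_desc {y : W} {i : B} (h : cs.length (y * cs.simple i) < cs.length y) :
    act cs y (Finsupp.single i 1) = - root cs (y * cs.simple i * y⁻¹) := by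
  have h1 := act_single_asc (cs := cs) (y := y * cs.simple i) (i := i)
    (by rwa [cs.simple_mul_simple_cancel_right])
  have e : y * cs.simple i * cs.simple i * (y * cs.simple i)⁻¹ = y * cs.simple i * y⁻¹ := by
    rw [cs.simple_mul_simple_cancel_right, mul_inv_rev, cs.inv_simple, mul_assoc]
  rw [e, act_mul_apply, act_simple_self, map_neg] at h1
  rw [← h1, neg_neg]

end Vale.Agent.P203.Cox
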