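import Vale.Agent.P203.Cox0.Par
import Mathlib.Data.Set.Finite.List

/-! P203, block COX-BASICS, part 4: longest elements of finite parabolic subgroups.

* `IsMax cs T w`: every `t ∈ T` is a right descent of `w`.
* `length_max_mul`: `ℓ (w v) + ℓ v = ℓ w` for `v ∈ parab cs T`.
* `w0 cs T`: the longest element of a finite `parab cs T`; `opp`: the opposition involution.
* `finite_parab_of_isMax`: the descent set of an element generates a finite subgroup. -/

namespace Vale.Agent.P203.Cox

open CoxeterSystem

variable {B : Type*} {W : Type*} [Group W] {M : CoxeterMatrix B} {cs : CoxeterSystem M W}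
variable {T U : Set B}

/-- every element of `T` is a right descent of `w` -/
def IsMax (cs : CoxeterSystem M W) (T : Set B) (w : W) : Prop :=
  ∀ t ∈ T, cs.length (w * cs.simple t) < cs.length w

theorem isMax_iff_NN {w : W} : IsMax cs T w ↔ ∀ t ∈ T, NN (-act cs w (Finsupp.single t 1)) :=
  forall₂_congr fun _ _ => length_gt_iff_NN

theorem NN_neg_act_of_supp {w : W} (hw : IsMax cs T w) {x : VSp B} (hx : NN x)
    (hs : ∀ i, i ∉ T → x i = 0) : NN (-act cs w x) := by
  have hsum : x = x.sum fun i a => a • Finsupp.single i (1 : ℝ) := by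
    conv_lhs => rw [← Finsupp.sum_single x]
    refine Finsupp.sum_congr fun i _ => ?_
    rw [Finsupp.smul_single, smul_eq_mul, mul_one]
  rw [hsum, Finsupp.sum, map_sum, ← Finset.sum_neg_distrib]
  intro j
  rw [Finsupp.finsetSum_apply]
  refine Finset.sum_nonneg fun i hi => ?_
  rw [map_smul, ← smul_neg]
  have hiT : i ∈ T := by
    by_contra hno
    exact (Finsupp.mem_support_iff.1 hi) (hs i hno)
  exact NN.smul (isMax_iff_NN.1 hw i hiT) (hx i) j

theorem act_single_supp {v : W} (hv : v ∈ parab cs T) {t : B} (ht : t ∈ T) {i : B} (hi : i ∉ T) :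
    act cs v (Finsupp.single t (1 : ℝ)) i = 0 := by
  rw [act_parab_apply hv _ hi]
  have : t ≠ i := fun h => hi (h ▸ ht)
  simp [this]

theorem length_max_mul {w v : W} (hw : IsMax cs T w) (hv : v ∈ parab cs T) :
    cs.length (w * v) + cs.length v = cs.length w := by
  induction hn : cs.length v using Nat.strong_induction_on generalizing v with
  | _ n ih =>
    by_cases h1 : v = 1
    · subst h1
      rw [mul_one, ← hn, cs.length_one, add_zero]
    · obtain ⟨t, ht, h2⟩ := exists_desc_parab hv h1
      have hv' : v * cs.simple t ∈ parab cs T := mul_mem hv (simple_mem_parab ht)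
      have h3 := ih _ (by omega) hv' rfl
      have hl : cs.length (v * cs.simple t) + 1 = cs.length v := by
        rcases cs.length_mul_simple v t with h | h <;> omega
      have hpos : NN (act cs (v * cs.simple t) (Finsupp.single t 1)) := by
        rw [← length_lt_iff_NN, simple_simple]; exact h2
      have hpos2 : NN (-act cs (w * (v * cs.simple t)) (Finsupp.single t 1)) := by
        rw [act_mul_apply]
        exact NN_neg_act_of_supp hw hpos fun i hi => act_single_supp hv' ht hi
      rw [← length_gt_iff_NN, mul_assoc, simple_simple] at hpos2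
      have h4 := cs.length_mul_simple (w * (v * cs.simple t)) t
      rw [mul_assoc w, simple_simple] at h4
      omega

theorem exists_isMax [Finite (parab cs T)] : ∃ w ∈ parab cs T, IsMax cs T w := by
  have hfin : Set.Finite (parab cs T : Set W) := Set.toFinite _
  obtain ⟨w, hw, hmax⟩ := hfin.exists_maximalFor cs.length _ ⟨1, one_mem _⟩
  refine ⟨w, hw, fun t ht => ?_⟩
  rcases lt_or_gt_simple (cs := cs) w t with h | h
  · have h1 : w * cs.simple t ∈ (parab cs T : Set W) := mul_mem hw (simple_mem_parab ht)
    have := hmax h1 h.le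
    omega
  · exact h

theorem isMax_unique {w x : W} (hw : w ∈ parab cs T) (hx : x ∈ parab cs T)
    (hmw : IsMax cs T w) (hmx : IsMax cs T x) : x = w := by
  have h1 := length_max_mul hmx (mul_mem (inv_mem hx) hw)
  have h2 := length_max_mul hmw (mul_mem (inv_mem hw) hx)
  rw [mul_inv_cancel_left] at h1 h2
  have h3 : cs.length (x⁻¹ * w) = 0 := by omega
  have h4 := cs.length_eq_zero_iff.1 h3
  exact (inv_mul_eq_one.1 h4)

open Classical in
/-- the longest element of a finite parabolic subgroup (`1` if it is infinite) -/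
noncomputable def w0 (cs : CoxeterSystem M W) (T : Set B) : W :=
  if h : ∃ w ∈ parab cs T, IsMax cs T w then h.choose else 1

theorem w0_mem : w0 cs T ∈ parab cs T := by
  unfold w0
  split_ifs with h
  · exact h.choose_spec.1
  · exact one_mem _

section Finite

variable [Finite (parab cs T)]

theorem w0_isMax : IsMax cs T (w0 cs T) := by
  have h : ∃ w ∈ parab cs T, IsMax cs T w := exists_isMax
  rw [w0, dif_pos h]
  exact h.choose_spec.2

theorem eq_w0 {w : W} (hw : w ∈ parab cs T) (h : IsMax cs T w) : w = w0 cs T :=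
  isMax_unique w0_mem hw w0_isMax h

theorem length_w0_mul {v : W} (hv : v ∈ parab cs T) :
    cs.length (w0 cs T * v) + cs.length v = cs.length (w0 cs T) := length_max_mul w0_isMax hv

theorem length_le_w0 {v : W} (hv : v ∈ parab cs T) : cs.length v ≤ cs.length (w0 cs T) := by
  have := length_w0_mul hv
  omega

theorem w0_mul_self : w0 cs T * w0 cs T = 1 := by
  have h := length_w0_mul (cs := cs) (T := T) w0_mem
  exact cs.length_eq_zero_iff.1 (by omega)

theorem w0_inv : (w0 cs T)⁻¹ = w0 cs T := inv_eq_of_mul_eq_one_left w0_mul_self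

theorem length_mul_w0 {v : W} (hv : v ∈ parab cs T) :
    cs.length (v * w0 cs T) + cs.length v = cs.length (w0 cs T) := by
  have h := length_w0_mul (inv_mem hv)
  rw [cs.length_inv, ← cs.length_inv (w0 cs T * v⁻¹), mul_inv_rev, inv_inv, w0_inv] at h
  exact h

theorem isMax_min_mul_w0 {u : W} (hu : IsMin cs T u) : IsMax cs T (u * w0 cs T) :=
  fun _ ht => (gt_min_mul_iff hu w0_mem ht).2 (w0_isMax _ ht)

theorem exists_opp {t : B} (ht : t ∈ T) :
    ∃ t' ∈ T, w0 cs T * cs.simple t * w0 cs T = cs.simple t' := by
  have hm : w0 cs T * cs.simple t * w0 cs T ∈ parab cs T :=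
    mul_mem (mul_mem w0_mem (simple_mem_parab ht)) w0_mem
  have h1 := length_w0_mul (mul_mem (simple_mem_parab (cs := cs) ht) (w0_mem (cs := cs) (T := T)))
  have h2 := length_mul_w0 (simple_mem_parab (cs := cs) ht)
  rw [cs.length_simple] at h2
  rw [← mul_assoc] at h1
  have h3 : cs.length (w0 cs T * cs.simple t * w0 cs T) = 1 := by omega
  obtain ⟨i, hi⟩ := cs.length_eq_one_iff.1 h3
  refine ⟨i, ?_, hi⟩
  rw [hi] at hm
  exact simple_mem_parab_iff.1 hm

end Finite

open Classical in
/-- the opposition involution of a spherical set `T` -/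
noncomputable def opp (cs : CoxeterSystem M W) (T : Set B) (t : B) : B :=
  if h : ∃ t' ∈ T, w0 cs T * cs.simple t * w0 cs T = cs.simple t' then h.choose else t

section Finite

variable [Finite (parab cs T)]

theorem opp_mem {t : B} (ht : t ∈ T) : opp cs T t ∈ T := by
  have h := exists_opp (cs := cs) ht
  rw [opp, dif_pos h]
  exact h.choose_spec.1

theorem w0_conj_simple {t : B} (ht : t ∈ T) :
    w0 cs T * cs.simple t * w0 cs T = cs.simple (opp cs T t) := by
  have h := exists_opp (cs := cs) ht
  rw [opp, dif_pos h]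
  exact h.choose_spec.2

theorem w0_mul_simple {t : B} (ht : t ∈ T) :
    w0 cs T * cs.simple t = cs.simple (opp cs T t) * w0 cs T := by
  rw [← w0_conj_simple ht, mul_assoc, w0_mul_self, mul_one]

theorem simple_mul_w0 {t : B} (ht : t ∈ T) :
    cs.simple t * w0 cs T = w0 cs T * cs.simple (opp cs T t) := by
  rw [← w0_conj_simple ht, ← mul_assoc, ← mul_assoc, w0_mul_self, one_mul]

theorem opp_opp {t : B} (ht : t ∈ T) : opp cs T (opp cs T t) = t := by
  have h1 := w0_conj_simple (cs := cs) (opp_mem (cs := cs) ht)
  rw [← w0_conj_simple ht] at h1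
  have h2 : cs.simple t = cs.simple (opp cs T (opp cs T t)) := by
    rw [← h1]
    have : w0 cs T * (w0 cs T * cs.simple t * w0 cs T) * w0 cs T =
        (w0 cs T * w0 cs T) * cs.simple t * (w0 cs T * w0 cs T) := by group
    rw [this, w0_mul_self, one_mul, mul_one]
  have h3 : cs.simple t ∈ parab cs {opp cs T (opp cs T t)} := by
    rw [h2]; exact simple_mem_parab rfl
  exact (simple_mem_parab_iff.1 h3).symm

theorem act_w0_single {t : B} (ht : t ∈ T) :
    act cs (w0 cs T) (Finsupp.single t 1) = -Finsupp.single (opp cs T t) 1 := by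
  have hneg := act_single_desc (cs := cs) (w0_isMax (cs := cs) t ht)
  rw [hneg]
  congr 1
  have h1 : w0 cs T * cs.simple t * (w0 cs T)⁻¹ = cs.simple (opp cs T t) := by
    rw [w0_inv, w0_conj_simple ht]
  rw [h1, root_simple]

end Finite

/-! ### Finiteness from a maximal element -/

theorem finite_of_length_le (hT : T.Finite) {n : ℕ} (h : ∀ v ∈ parab cs T, cs.length v ≤ n) :
    Finite (parab cs T) := by
  have hfin : Set.Finite {ω : List B | (∀ i ∈ ω, i ∈ T) ∧ ω.length ≤ n} := by
    have h1 : {ω : List B | (∀ i ∈ ω, i ∈ T) ∧ ω.length ≤ n} ⊆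
        (fun l : List T => l.map Subtype.val) '' {l : List T | l.length ≤ n} := by
      rintro ω ⟨h2, h3⟩
      refine ⟨ω.attach.map fun i => ⟨i.1, h2 i.1 i.2⟩, by simpa using h3, ?_⟩
      simp
    have : Finite T := hT
    exact (Set.Finite.image _ (List.finite_length_le T n)).subset h1
  refine Set.Finite.subset (hfin.image cs.wordProd) ?_
  intro v hv
  obtain ⟨ω, h1, h2, rfl⟩ := exists_reduced_of_mem_parab hv
  exact ⟨ω, ⟨h1, by rw [← h2.eq]; exact h _ hv⟩, rfl⟩

theorem finite_parab_of_isMax (hT : T.Finite) {w : W} (hw : IsMax cs T w) :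
    Finite (parab cs T) :=
  finite_of_length_le hT (n := cs.length w) fun v hv => by
    have := length_max_mul hw hv
    omega

/-- an element with all of `T` in its right descent set is `u * w0` with `u` minimal -/
theorem exists_mul_w0_of_isMax (hT : T.Finite) {w : W} (hw : IsMax cs T w) :
    ∃ u, IsMin cs T u ∧ w = u * w0 cs T ∧ cs.length w = cs.length u + cs.length (w0 cs T) := by
  have := finite_parab_of_isMax hT hw
  obtain ⟨u, v, hu, hv, h⟩ := exists_min_mul (cs := cs) T w
  have h1 : v = w0 cs T := eq_w0 hv fun t ht => by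
    have h2 := hw t ht
    rw [h] at h2
    exact (gt_min_mul_iff hu hv ht).1 h2
  refine ⟨u, hu, by rw [h, h1], ?_⟩
  rw [h, h1, length_min_mul hu w0_mem]

theorem finite_parab_mono (h : T ⊆ U) [Finite (parab cs U)] : Finite (parab cs T) :=
  Finite.Set.subset _ (parab_mono h)

end Vale.Agent.P203.Cox
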