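import Vale.Agent.P203.Cox0.GeomRep
import Vale.Agent.P203.Cox0.Exchange

/-! P203, block COX-BASICS, part 3: standard parabolic subgroups of an arbitrary Coxeter system.

* `parab cs T` is the subgroup generated by the simple reflections in `T : Set B`.
* `IsMin cs T u`: `u` is right `T`-minimal (`ℓ u < ℓ (u s_t)` for `t ∈ T`).
* `exists_min_mul`, `length_min_mul`, `min_mul_unique`: minimal coset representatives.
* `parab_inf`, `simple_mem_parab_iff`, `mem_of_reduced`: supports. -/

namespace Vale.Agent.P203.Cox

open CoxeterSystem

variable {B : Type*} {W : Type*} [Group W] {M : CoxeterMatrix B} {cs : CoxeterSystem M W}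

theorem simple_simple (w : W) (i : B) : w * cs.simple i * cs.simple i = w :=
  cs.simple_mul_simple_cancel_right i

/-- exchange condition for an arbitrary word -/
theorem exchange (ω : List B) {t : W} (ht : cs.IsReflection t)
    (h : cs.length (cs.wordProd ω * t) < cs.length (cs.wordProd ω)) :
    ∃ j < ω.length, cs.wordProd ω * t = cs.wordProd (ω.eraseIdx j) := by
  have h1 := (mul_lt_iff_eta cs ht (cs.wordProd ω)).1 h
  have h2 := par_wordProd cs ω (t, 0)
  have h3 := congrArg Prod.snd h2
  unfold eta at h1
  rw [h1] at h3
  simp only [zero_add] at h3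
  have hmem : t ∈ cs.rightInvSeq ω := by
    by_contra hno
    classical
    rw [List.count_eq_zero_of_not_mem hno] at h3
    simp at h3
  obtain ⟨j, hj, rfl⟩ := List.getElem_of_mem hmem
  rw [cs.length_rightInvSeq] at hj
  refine ⟨j, hj, ?_⟩
  have h4 := cs.wordProd_mul_getD_rightInvSeq ω j
  rwa [List.getD_eq_getElem _ _ (by rwa [cs.length_rightInvSeq])] at h4

/-- exchange condition on the left, for an arbitrary word -/
theorem exchange_left (ω : List B) {t : W} (ht : cs.IsReflection t)
    (h : cs.length (t * cs.wordProd ω) < cs.length (cs.wordProd ω)) :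
    ∃ j < ω.length, t * cs.wordProd ω = cs.wordProd (ω.eraseIdx j) := by
  set w := cs.wordProd ω with hw
  have ht' : cs.IsReflection (w⁻¹ * t * w) := by
    have := ht.conj w⁻¹
    rwa [inv_inv] at this
  have e : w * (w⁻¹ * t * w) = t * w := by group
  obtain ⟨j, hj, h1⟩ := exchange (cs := cs) ω ht' (by rw [← hw, e]; exact h)
  exact ⟨j, hj, by rw [← h1, ← hw, e]⟩

theorem length_lt_iff_NN {w : W} {i : B} :
    cs.length w < cs.length (w * cs.simple i) ↔ NN (act cs w (Finsupp.single i 1)) := by
  constructor
  · exact act_single_NN _ w i rfl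
  · intro h
    by_contra hlt
    have h1 : cs.length (w * cs.simple i) < cs.length (w * cs.simple i * cs.simple i) := by
      rw [simple_simple]
      rcases cs.length_mul_simple w i with h2 | h2 <;> omega
    have h2 := act_single_NN (cs := cs) _ _ i rfl h1
    rw [act_mul_apply, act_simple_self, map_neg] at h2
    have h3 := eq_zero_of_NN h h2
    have h4 : form M (act cs w (Finsupp.single i 1)) (act cs w (Finsupp.single i 1)) = 2 := by
      rw [form_act, datum_act, gram_self]
    rw [h3] at h4
    simp at h4

theorem lt_or_gt_simple (w : W) (i : B) :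
    cs.length w < cs.length (w * cs.simple i) ∨ cs.length (w * cs.simple i) < cs.length w := by
  rcases cs.length_mul_simple w i with h2 | h2 <;> omega

theorem length_gt_iff_NN {w : W} {i : B} :
    cs.length (w * cs.simple i) < cs.length w ↔ NN (-act cs w (Finsupp.single i 1)) := by
  have h := length_lt_iff_NN (cs := cs) (w := w * cs.simple i) (i := i)
  rw [simple_simple, act_mul_apply, act_simple_self, map_neg] at h
  exact h

/-! ### Parabolic subgroups -/

/-- the standard parabolic subgroup attached to `T` -/
def parab (cs : CoxeterSystem M W) (T : Set B) : Subgroup W := Subgroup.closure (cs.simple '' T)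

variable {T U : Set B}

theorem simple_mem_parab {t : B} (ht : t ∈ T) : cs.simple t ∈ parab cs T :=
  Subgroup.subset_closure ⟨t, ht, rfl⟩

theorem parab_mono (h : T ⊆ U) : parab cs T ≤ parab cs U :=
  Subgroup.closure_mono (Set.image_mono h)

theorem parab_univ : parab cs Set.univ = ⊤ := by
  rw [parab, Set.image_univ]
  exact cs.subgroup_closure_range_simple

theorem parab_empty : parab cs (∅ : Set B) = ⊥ := by
  rw [parab, Set.image_empty, Subgroup.closure_empty]

theorem wordProd_mem_parab {ω : List B} (h : ∀ i ∈ ω, i ∈ T) : cs.wordProd ω ∈ parab cs T := by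
  induction ω with
  | nil => rw [cs.wordProd_nil]; exact one_mem _
  | cons i ω ih =>
    rw [cs.wordProd_cons]
    exact mul_mem (simple_mem_parab (h i (by simp))) (ih fun j hj => h j (by simp [hj]))

theorem exists_word_of_mem_parab {v : W} (hv : v ∈ parab cs T) :
    ∃ ω : List B, (∀ i ∈ ω, i ∈ T) ∧ cs.wordProd ω = v := by
  induction hv using Subgroup.closure_induction with
  | mem x hx =>
    obtain ⟨t, ht, rfl⟩ := hx
    exact ⟨[t], by simpa using ht, cs.wordProd_singleton t⟩
  | one => exact ⟨[], by simp, cs.wordProd_nil⟩
  | mul x y _ _ hx hy =>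
    obtain ⟨ω, h1, rfl⟩ := hx
    obtain ⟨ω', h2, rfl⟩ := hy
    refine ⟨ω ++ ω', ?_, cs.wordProd_append _ _⟩
    intro i hi
    rcases List.mem_append.1 hi with h | h
    · exact h1 i h
    · exact h2 i h
  | inv x _ hx =>
    obtain ⟨ω, h1, rfl⟩ := hx
    exact ⟨ω.reverse, fun i hi => h1 i (List.mem_reverse.1 hi), cs.wordProd_reverse _⟩

/-- elements of a parabolic subgroup have reduced words with letters in `T` -/
theorem exists_reduced_of_mem_parab {v : W} (hv : v ∈ parab cs T) :
    ∃ ω : List B, (∀ i ∈ ω, i ∈ T) ∧ cs.IsReduced ω ∧ cs.wordProd ω = v := by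
  obtain ⟨ω, h1, h2⟩ := exists_word_of_mem_parab hv
  induction hn : ω.length using Nat.strong_induction_on generalizing ω v with
  | _ n ih =>
    by_cases hred : cs.IsReduced ω
    · exact ⟨ω, h1, hred, h2⟩
    -- a nonreduced word can be shortened inside `T`
    obtain ⟨k, hk⟩ : ∃ k, k ≤ ω.length ∧ ¬ cs.IsReduced (ω.take k) :=
      ⟨ω.length, le_rfl, by rwa [List.take_length]⟩
    classical
    have hex : ∃ k, k ≤ ω.length ∧ ¬ cs.IsReduced (ω.take k) := ⟨k, hk⟩
    let m := Nat.find hex
    obtain ⟨hm1, hm2⟩ := Nat.find_spec hex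
    have hm0 : m ≠ 0 := by
      intro h0
      apply hm2
      change cs.IsReduced (ω.take m)
      rw [h0, List.take_zero]
      simp [CoxeterSystem.IsReduced]
    obtain ⟨m', hm'⟩ := Nat.exists_eq_succ_of_ne_zero hm0
    have hm3 : cs.IsReduced (ω.take m') := by
      by_contra hno
      exact Nat.find_min hex (m := m') (by change m' < m; omega) ⟨by change m ≤ _ at hm1; omega, hno⟩
    have hlt : m' < ω.length := by change m ≤ _ at hm1; omega
    have htake : ω.take m = ω.take m' ++ [ω[m']] := by
      rw [hm', Nat.succ_eq_add_one, List.take_succ_eq_append_getElem hlt]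
    have hp : cs.wordProd (ω.take m) = cs.wordProd (ω.take m') * cs.simple ω[m'] := by
      rw [htake, cs.wordProd_append, cs.wordProd_singleton]
    have hlen : cs.length (cs.wordProd (ω.take m') * cs.simple ω[m']) <
        cs.length (cs.wordProd (ω.take m')) := by
      rcases lt_or_gt_simple (cs := cs) (cs.wordProd (ω.take m')) ω[m'] with h | h
      · exfalso
        apply hm2
        change cs.IsReduced (ω.take m)
        unfold CoxeterSystem.IsReduced at hm3 ⊢
        rw [hp]
        rcases cs.length_mul_simple (cs.wordProd (ω.take m')) ω[m'] with h3 | h3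
        · rw [h3, hm3, htake]; simp; omega
        · omega
      · exact h
    obtain ⟨j, hj, hex2⟩ := exchange (cs := cs) _ (cs.isReflection_simple _) hlen
    have hsplit : ω = ω.take m' ++ ω[m'] :: ω.drop (m' + 1) := by
      rw [List.getElem_cons_drop, List.take_append_drop]
    have hv2 : cs.wordProd ((ω.take m').eraseIdx j ++ ω.drop (m' + 1)) = v := by
      rw [cs.wordProd_append, ← hex2, ← h2]
      conv_rhs => rw [hsplit, cs.wordProd_append, cs.wordProd_cons]
      rw [mul_assoc]
    refine ih _ ?_ hv ((ω.take m').eraseIdx j ++ ω.drop (m' + 1)) ?_ hv2 rfl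
    · rw [List.length_append, List.length_eraseIdx_of_lt hj, List.length_drop, List.length_take]
      omega
    · intro i hi
      rcases List.mem_append.1 hi with h | h
      · exact h1 i (List.mem_of_mem_take (List.mem_of_mem_eraseIdx h))
      · exact h1 i (List.mem_of_mem_drop h)

/-- a simple reflection in `parab cs T` has its index in `T` -/
theorem simple_mem_parab_iff {i : B} : cs.simple i ∈ parab cs T ↔ i ∈ T := by
  constructor
  · intro h
    obtain ⟨ω, h1, h2, h3⟩ := exists_reduced_of_mem_parab h
    unfold CoxeterSystem.IsReduced at h2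
    rw [h3, cs.length_simple] at h2
    obtain ⟨j, rfl⟩ := List.length_eq_one_iff.1 h2.symm
    rw [cs.wordProd_singleton] at h3
    -- simple reflections are distinct
    have h4 : act cs (cs.simple j) (Finsupp.single j (1 : ℝ)) =
        act cs (cs.simple i) (Finsupp.single j (1 : ℝ)) := by rw [h3]
    rw [act_simple_self, act_simple] at h4
    have h5 : i = j := by
      by_contra hne
      have h6 := congrArg (fun v => v j) h4
      simp [hne] at h6
      norm_num at h6
    rw [h5]
    exact h1 j (by simp)
  · exact simple_mem_parab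

/-- all letters of a reduced word of an element of `parab cs T` are in `T` -/
theorem mem_of_reduced {ω : List B} (hω : cs.IsReduced ω) (h : cs.wordProd ω ∈ parab cs T) :
    ∀ i ∈ ω, i ∈ T := by
  induction ω using List.reverseRecOn with
  | nil => simp
  | append_singleton ω i ih =>
    have hred : cs.IsReduced ω := by
      have := hω.take ω.length
      rwa [List.take_left] at this
    rw [cs.wordProd_append, cs.wordProd_singleton] at h
    have hlt : cs.length (cs.wordProd ω * cs.simple i * cs.simple i) <
        cs.length (cs.wordProd ω * cs.simple i) := by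
      rw [simple_simple]
      unfold CoxeterSystem.IsReduced at hω hred
      rw [cs.wordProd_append, cs.wordProd_singleton] at hω
      rw [hω, hred]
      simp
    obtain ⟨ω', h1, h2⟩ := exists_word_of_mem_parab h
    rw [← h2] at hlt
    obtain ⟨j, hj, h3⟩ := exchange (cs := cs) ω' (cs.isReflection_simple i) hlt
    have h4 : cs.wordProd ω ∈ parab cs T := by
      have : cs.wordProd (ω'.eraseIdx j) = cs.wordProd ω := by
        rw [← h3, h2, simple_simple]
      rw [← this]
      exact wordProd_mem_parab fun k hk => h1 k (List.mem_of_mem_eraseIdx hk)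
    have h5 : cs.simple i ∈ parab cs T := by
      have := mul_mem (inv_mem h4) h
      rwa [inv_mul_cancel_left] at this
    intro k hk
    rcases List.mem_append.1 hk with h6 | h6
    · exact ih hred h4 k h6
    · rw [List.mem_singleton.1 h6]
      exact simple_mem_parab_iff.1 h5

theorem parab_inf : parab cs T ⊓ parab cs U = parab cs (T ∩ U) := by
  apply le_antisymm
  · rintro v ⟨h1, h2⟩
    obtain ⟨ω, h3, rfl⟩ := cs.exists_isReduced v
    exact wordProd_mem_parab fun i hi => ⟨mem_of_reduced h3 h1 i hi, mem_of_reduced h3 h2 i hi⟩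
  · exact le_inf (parab_mono Set.inter_subset_left) (parab_mono Set.inter_subset_right)

/-- a nontrivial element of a parabolic subgroup has a right descent in `T` -/
theorem exists_desc_parab {v : W} (hv : v ∈ parab cs T) (h1 : v ≠ 1) :
    ∃ t ∈ T, cs.length (v * cs.simple t) < cs.length v := by
  obtain ⟨ω, h2, h3, rfl⟩ := exists_reduced_of_mem_parab hv
  rcases List.eq_nil_or_concat ω with rfl | ⟨ω', t, rfl⟩
  · exact absurd cs.wordProd_nil h1
  · refine ⟨t, h2 t (by simp), ?_⟩
    have hred : cs.IsReduced ω' := by
      have := h3.take ω'.length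
      rwa [List.concat_eq_append, List.take_left] at this
    unfold CoxeterSystem.IsReduced at h3 hred
    rw [List.concat_eq_append, cs.wordProd_append, cs.wordProd_singleton] at h3 ⊢
    rw [simple_simple, h3, hred]
    simp

/-- right descents of elements of `parab cs T` lie in `T` -/
theorem desc_mem {v : W} (hv : v ∈ parab cs T) {i : B}
    (hi : cs.length (v * cs.simple i) < cs.length v) : i ∈ T := by
  obtain ⟨ω, h1, h2⟩ := exists_word_of_mem_parab hv
  rw [← h2] at hi
  obtain ⟨j, hj, h3⟩ := exchange (cs := cs) ω (cs.isReflection_simple i) hi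
  have h4 : cs.wordProd ω * cs.simple i ∈ parab cs T := by
    rw [h3]
    exact wordProd_mem_parab fun k hk => h1 k (List.mem_of_mem_eraseIdx hk)
  rw [h2] at h4
  have := mul_mem (inv_mem hv) h4
  rw [inv_mul_cancel_left] at this
  exact simple_mem_parab_iff.1 this

/-! ### Minimal coset representatives -/

/-- `u` is the shortest element of `u W_T` -/
def IsMin (cs : CoxeterSystem M W) (T : Set B) (u : W) : Prop :=
  ∀ t ∈ T, cs.length u < cs.length (u * cs.simple t)

theorem isMin_one : IsMin cs T 1 := fun t _ => by
  rw [one_mul, cs.length_one, cs.length_simple]; exact one_pos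

theorem IsMin.mono {u : W} (h : IsMin cs T u) (hU : U ⊆ T) : IsMin cs U u :=
  fun t ht => h t (hU ht)

theorem isMin_iff_NN {u : W} : IsMin cs T u ↔ ∀ t ∈ T, NN (act cs u (Finsupp.single t 1)) :=
  forall₂_congr fun _ _ => length_lt_iff_NN

/-- an element of `parab cs T` changes only the coordinates in `T` -/
theorem act_parab_apply {v : W} (hv : v ∈ parab cs T) (x : VSp B) {i : B} (hi : i ∉ T) :
    act cs v x i = x i := by
  induction hv using Subgroup.closure_induction generalizing x with
  | mem y hy =>
    obtain ⟨t, ht, rfl⟩ := hy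
    rw [act_simple]
    have : t ≠ i := fun h => hi (h ▸ ht)
    simp [this]
  | one => rw [act_one_apply]
  | mul y z _ _ hy hz => rw [act_mul_apply, hy, hz]
  | inv y _ hy =>
    have := hy (act cs y⁻¹ x)
    rw [act_self_inv_apply] at this
    exact this.symm

/-- nonnegative combinations of the `e_t`, `t ∈ T`, stay nonnegative under a `T`-minimal element -/
theorem NN_act_of_supp {u : W} (hu : IsMin cs T u) {x : VSp B} (hx : NN x)
    (hs : ∀ i, i ∉ T → x i = 0) : NN (act cs u x) := by
  have hsum : x = x.sum fun i a => a • Finsupp.single i (1 : ℝ) := by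
    conv_lhs => rw [← Finsupp.sum_single x]
    refine Finsupp.sum_congr fun i _ => ?_
    rw [Finsupp.smul_single, smul_eq_mul, mul_one]
  rw [hsum, Finsupp.sum, map_sum]
  intro j
  rw [Finsupp.finsetSum_apply]
  refine Finset.sum_nonneg fun i hi => ?_
  rw [map_smul]
  have hiT : i ∈ T := by
    by_contra hno
    exact (Finsupp.mem_support_iff.1 hi) (hs i hno)
  exact NN.smul (isMin_iff_NN.1 hu i hiT) (hx i) j

theorem length_min_mul {u v : W} (hu : IsMin cs T u) (hv : v ∈ parab cs T) :
    cs.length (u * v) = cs.length u + cs.length v := by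
  induction hn : cs.length v using Nat.strong_induction_on generalizing v with
  | _ n ih =>
    by_cases h1 : v = 1
    · subst h1
      rw [mul_one, ← hn, cs.length_one, add_zero]
    · obtain ⟨t, ht, h2⟩ := exists_desc_parab hv h1
      have hv' : v * cs.simple t ∈ parab cs T := mul_mem hv (simple_mem_parab ht)
      have h3 := ih _ (by omega) hv' rfl
      have hl : cs.length (v * cs.simple t) + 1 = cs.length v := by
        rcases cs.length_mul_simple v t with h | h <;> omega
      have hpos : NN (act cs (v * cs.simple t) (Finsupp.single t 1)) := by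
        rw [← length_lt_iff_NN, simple_simple]; exact h2
      have hpos2 : NN (act cs (u * (v * cs.simple t)) (Finsupp.single t 1)) := by
        rw [act_mul_apply]
        refine NN_act_of_supp hu hpos fun i hi => ?_
        rw [act_parab_apply hv' _ hi]
        have : t ≠ i := fun h => hi (h ▸ ht)
        simp [this]
      rw [← length_lt_iff_NN, mul_assoc, simple_simple] at hpos2
      have h4 := cs.length_mul_simple (u * (v * cs.simple t)) t
      rw [mul_assoc u, simple_simple] at h4
      rw [← mul_assoc] at hpos2 h4 h3
      rw [mul_assoc, h3] at *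
      omega

theorem exists_min_mul (T : Set B) (w : W) : ∃ u v : W, IsMin cs T u ∧ v ∈ parab cs T ∧
    w = u * v := by
  induction hn : cs.length w using Nat.strong_induction_on generalizing w with
  | _ n ih =>
    by_cases h : IsMin cs T w
    · exact ⟨w, 1, h, one_mem _, (mul_one w).symm⟩
    · unfold IsMin at h
      push Not at h
      obtain ⟨t, ht, h1⟩ := h
      have h2 : cs.length (w * cs.simple t) < cs.length w := by
        rcases cs.length_mul_simple w t with h | h <;> omega
      obtain ⟨u, v, hu, hv, h3⟩ := ih _ (by omega) (w * cs.simple t) rfl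
      refine ⟨u, v * cs.simple t, hu, mul_mem hv (simple_mem_parab ht), ?_⟩
      rw [← mul_assoc, ← h3, simple_simple]

theorem min_mul_unique {u u' v : W} (hu : IsMin cs T u) (hu' : IsMin cs T u')
    (hv : v ∈ parab cs T) (h : u' = u * v) : u' = u ∧ v = 1 := by
  have h1 := length_min_mul hu hv
  have h2 := length_min_mul hu' (inv_mem hv)
  rw [h, mul_assoc, mul_inv_cancel, mul_one, h1, cs.length_inv] at h2
  have h3 : v = 1 := cs.length_eq_zero_iff.1 (by omega)
  exact ⟨by rw [h, h3, mul_one], h3⟩

/-- `ℓ (u v s_t) - ℓ (u v) = ℓ (v s_t) - ℓ v` for `u` minimal and `v ∈ W_T`, `t ∈ T` -/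
theorem lt_min_mul_iff {u v : W} (hu : IsMin cs T u) (hv : v ∈ parab cs T) {t : B} (ht : t ∈ T) :
    cs.length (u * v) < cs.length (u * v * cs.simple t) ↔
      cs.length v < cs.length (v * cs.simple t) := by
  rw [mul_assoc, length_min_mul hu hv, length_min_mul hu (mul_mem hv (simple_mem_parab ht))]
  omega

theorem gt_min_mul_iff {u v : W} (hu : IsMin cs T u) (hv : v ∈ parab cs T) {t : B} (ht : t ∈ T) :
    cs.length (u * v * cs.simple t) < cs.length (u * v) ↔
      cs.length (v * cs.simple t) < cs.length v := by
  rw [mul_assoc, length_min_mul hu hv, length_min_mul hu (mul_mem hv (simple_mem_parab ht))]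
  omega

/-- `u` is minimal iff it is shortest in its coset -/
theorem isMin_iff_length_le {u : W} : IsMin cs T u ↔
    ∀ v ∈ parab cs T, cs.length u ≤ cs.length (u * v) := by
  constructor
  · intro h v hv
    rw [length_min_mul h hv]
    omega
  · intro h t ht
    have h1 := h _ (simple_mem_parab ht)
    have h2 := cs.length_mul_simple_ne u t
    omega

end Vale.Agent.P203.Cox
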