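import Mathlib.Analysis.RCLike.Lemmas
import Mathlib.Topology.Algebra.Order.Field
import Mathlib.Topology.MetricSpace.ProperSpace.Real
import Mathlib.Tactic

/-! P203, block COX-BASICS: finite symmetric matrices with nonpositive off-diagonal entries.

* `quad_eq`: the weighted square identity.
* `posdef_of_pos`: `v > 0`, `g v > 0` imply that `g` is positive definite.
* `nonneg_of_mul_nonneg`: for positive definite `g`, `g x ≥ 0` implies `x ≥ 0`.
* `perron`: a positive eigenvector for connected `g`. -/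

namespace Vale.Agent.P203.Cox

open Finset

variable {ι : Type*} [Fintype ι] (g : ι → ι → ℝ)

/-- the quadratic form -/
def qf (x y : ι → ℝ) : ℝ := ∑ i, ∑ j, g i j * (x i * y j)

theorem qf_eq (x y : ι → ℝ) : qf g x y = ∑ i, x i * ∑ j, g i j * y j := by
  unfold qf
  refine sum_congr rfl fun i _ => ?_
  rw [mul_sum]
  exact sum_congr rfl fun j _ => by ring

theorem qf_comm (hs : ∀ i j, g i j = g j i) (x y : ι → ℝ) : qf g x y = qf g y x := by
  unfold qf
  rw [sum_comm]
  refine sum_congr rfl fun i _ => sum_congr rfl fun j _ => ?_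
  rw [hs i j]; ring

theorem qf_add_left (x x' y : ι → ℝ) : qf g (x + x') y = qf g x y + qf g x' y := by
  unfold qf
  rw [← sum_add_distrib]
  refine sum_congr rfl fun i _ => ?_
  rw [← sum_add_distrib]
  exact sum_congr rfl fun j _ => by simp only [Pi.add_apply]; ring

theorem qf_add_right (x y y' : ι → ℝ) : qf g x (y + y') = qf g x y + qf g x y' := by
  unfold qf
  rw [← sum_add_distrib]
  refine sum_congr rfl fun i _ => ?_
  rw [← sum_add_distrib]
  exact sum_congr rfl fun j _ => by simp only [Pi.add_apply]; ring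

theorem qf_smul_left (a : ℝ) (x y : ι → ℝ) : qf g (a • x) y = a * qf g x y := by
  unfold qf
  rw [mul_sum]
  refine sum_congr rfl fun i _ => ?_
  rw [mul_sum]
  exact sum_congr rfl fun j _ => by simp only [Pi.smul_apply, smul_eq_mul]; ring

theorem qf_smul_right (a : ℝ) (x y : ι → ℝ) : qf g x (a • y) = a * qf g x y := by
  unfold qf
  rw [mul_sum]
  refine sum_congr rfl fun i _ => ?_
  rw [mul_sum]
  exact sum_congr rfl fun j _ => by simp only [Pi.smul_apply, smul_eq_mul]; ring

/-- the weighted square identity -/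
theorem quad_eq (hs : ∀ i j, g i j = g j i) (v y : ι → ℝ) :
    2 * qf g (v * y) (v * y) = 2 * ∑ i, y i ^ 2 * v i * ∑ j, g i j * v j +
      ∑ i, ∑ j, (-g i j) * (v i * v j * (y i - y j) ^ 2) := by
  have h1 : ∑ i, ∑ j, (-g i j) * (v i * v j * (y i - y j) ^ 2) =
      ∑ i, ∑ j, (-g i j) * (v i * v j * y i ^ 2) + ∑ i, ∑ j, (-g i j) * (v i * v j * y j ^ 2) +
        2 * qf g (v * y) (v * y) := by
    unfold qf
    rw [mul_sum, ← sum_add_distrib, ← sum_add_distrib]
    refine sum_congr rfl fun i _ => ?_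
    rw [mul_sum, ← sum_add_distrib, ← sum_add_distrib]
    exact sum_congr rfl fun j _ => by simp only [Pi.mul_apply]; ring
  have h2 : ∑ i, ∑ j, (-g i j) * (v i * v j * y j ^ 2) =
      ∑ i, ∑ j, (-g i j) * (v i * v j * y i ^ 2) := by
    rw [sum_comm]
    refine sum_congr rfl fun i _ => sum_congr rfl fun j _ => ?_
    rw [hs i j]; ring
  have h3 : ∑ i, ∑ j, (-g i j) * (v i * v j * y i ^ 2) =
      -∑ i, y i ^ 2 * v i * ∑ j, g i j * v j := by
    rw [← sum_neg_distrib]
    refine sum_congr rfl fun i _ => ?_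
    rw [mul_sum, ← sum_neg_distrib]
    exact sum_congr rfl fun j _ => by ring
  rw [h1, h2, h3]
  ring

variable {g}

/-- a symmetric matrix with nonpositive off-diagonal entries, `v > 0` and `g v > 0`, is positive
definite -/
theorem posdef_of_pos (hs : ∀ i j, g i j = g j i) (ho : ∀ i j, i ≠ j → g i j ≤ 0)
    {v : ι → ℝ} (hv : ∀ i, 0 < v i) (hgv : ∀ i, 0 < ∑ j, g i j * v j) {x : ι → ℝ} (hx : x ≠ 0) :
    0 < qf g x x := by
  have e : x = v * (fun i => x i / v i) := by
    funext i
    simp only [Pi.mul_apply]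
    rw [mul_div_cancel₀ _ (hv i).ne']
  have h := quad_eq g hs v (fun i => x i / v i)
  rw [← e] at h
  obtain ⟨k, hk⟩ := Function.ne_iff.1 hx
  have h1 : 0 < ∑ i, (x i / v i) ^ 2 * v i * ∑ j, g i j * v j := by
    refine sum_pos' (fun i _ => ?_) ⟨k, mem_univ _, ?_⟩
    · exact mul_nonneg (mul_nonneg (sq_nonneg _) (hv i).le) (hgv i).le
    · refine mul_pos (mul_pos ?_ (hv k)) (hgv k)
      have : x k / v k ≠ 0 := div_ne_zero hk (hv k).ne'
      positivity
  have h2 : 0 ≤ ∑ i, ∑ j, (-g i j) * (v i * v j * (x i / v i - x j / v j) ^ 2) := by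
    refine sum_nonneg fun i _ => sum_nonneg fun j _ => ?_
    by_cases hij : i = j
    · subst hij; simp
    · exact mul_nonneg (by linarith [ho i j hij])
        (mul_nonneg (mul_nonneg (hv i).le (hv j).le) (sq_nonneg _))
  linarith

/-- monotone inverse: for a positive definite matrix with nonpositive off-diagonal entries,
`g x ≥ 0` implies `x ≥ 0` -/
theorem nonneg_of_mul_nonneg (ho : ∀ i j, i ≠ j → g i j ≤ 0)
    (hpd : ∀ x : ι → ℝ, x ≠ 0 → 0 < qf g x x) {x : ι → ℝ} (hx : ∀ i, 0 ≤ ∑ j, g i j * x j)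
    (i : ι) : 0 ≤ x i := by
  set p : ι → ℝ := fun i => max (x i) 0 with hp
  set m : ι → ℝ := fun i => max (-x i) 0 with hm
  have e : x = p + (-1 : ℝ) • m := by
    funext i
    simp only [hp, hm, Pi.add_apply, Pi.smul_apply, smul_eq_mul]
    rcases le_total (x i) 0 with h | h
    · rw [max_eq_right h, max_eq_left (by linarith)]; ring
    · rw [max_eq_left h, max_eq_right (by linarith)]; ring
  have h1 : 0 ≤ qf g m x := by
    rw [qf_eq]
    exact sum_nonneg fun i _ => mul_nonneg (le_max_right _ _) (hx i)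
  have h2 : qf g m p ≤ 0 := by
    unfold qf
    refine sum_nonpos fun i _ => sum_nonpos fun j _ => ?_
    by_cases hij : i = j
    · subst hij
      have : m i * p i = 0 := by
        simp only [hp, hm]
        rcases le_total (x i) 0 with h | h
        · rw [max_eq_right h, mul_zero]
        · rw [max_eq_right (by linarith : -x i ≤ 0), zero_mul]
      rw [this, mul_zero]
    · exact mul_nonpos_of_nonpos_of_nonneg (ho i j hij)
        (mul_nonneg (le_max_right _ _) (le_max_right _ _))
  rw [e, qf_add_right, qf_smul_right] at h1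
  have h3 : qf g m m ≤ 0 := by linarith
  have h4 : m = 0 := by
    by_contra hne
    exact absurd (hpd m hne) (not_lt.2 h3)
  have h5 : m i = 0 := by rw [h4]; rfl
  simp only [hm] at h5
  have h6 : -x i ≤ max (-x i) 0 := le_max_left _ _
  linarith

/-- connectedness of a matrix -/
def MConn (g : ι → ι → ℝ) : Prop :=
  ∀ s : Set ι, s.Nonempty → sᶜ.Nonempty → ∃ i ∈ s, ∃ j ∈ sᶜ, g i j ≠ 0

/-- if `g x ≥ 0` and `x ≥ 0`, `x ≠ 0` and `g` is connected then `x > 0` -/
theorem pos_of_conn (ho : ∀ i j, i ≠ j → g i j ≤ 0)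
    (hc : MConn g) {x : ι → ℝ} (hx : ∀ i, 0 ≤ x i) (hne : x ≠ 0)
    (hz : ∀ i, x i = 0 → 0 ≤ ∑ j, g i j * x j) (i : ι) : 0 < x i := by
  by_contra hi
  have hi0 : x i = 0 := le_antisymm (not_lt.1 hi) (hx i)
  obtain ⟨k, hk⟩ := Function.ne_iff.1 hne
  obtain ⟨a, ha, b, hb, hab⟩ := hc {j | x j = 0} ⟨i, hi0⟩ ⟨k, hk⟩
  have ha0 : x a = 0 := ha
  have hb0 : x b ≠ 0 := hb
  have hne' : a ≠ b := fun h => hb0 (h ▸ ha0)
  have h1 : ∑ j, g a j * x j < 0 := by
    refine sum_neg' (fun j _ => ?_) ⟨b, mem_univ _, ?_⟩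
    · by_cases haj : a = j
      · rw [← haj, ha0, mul_zero]
      · exact mul_nonpos_of_nonpos_of_nonneg (ho a j haj) (hx j)
    · exact mul_neg_of_neg_of_pos (lt_of_le_of_ne (ho a b hne') hab)
        (lt_of_le_of_ne (hx b) hb0.symm)
  exact absurd (hz a ha0) (not_le.2 h1)

/-- Perron's theorem: a connected symmetric matrix with nonpositive off-diagonal entries has an
eigenvector with positive coordinates -/
theorem perron [Nonempty ι] (hs : ∀ i j, g i j = g j i) (ho : ∀ i j, i ≠ j → g i j ≤ 0)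
    (hc : MConn g) : ∃ (v : ι → ℝ) (μ : ℝ), (∀ i, 0 < v i) ∧ ∀ i, ∑ j, g i j * v j = μ * v i := by
  classical
  -- minimise the form on the unit sphere
  set K : Set (ι → ℝ) := {x | ∑ i, x i ^ 2 = 1} with hK
  have hcl : IsClosed K := isClosed_eq (by fun_prop) continuous_const
  have hbd : Bornology.IsBounded K := by
    refine (Metric.isBounded_closedBall (x := (0 : ι → ℝ)) (r := 1)).subset fun x hx => ?_
    rw [mem_closedBall_zero_iff, pi_norm_le_iff_of_nonneg zero_le_one]
    intro i
    have h1 : x i ^ 2 ≤ ∑ j, x j ^ 2 := single_le_sum (fun j _ => sq_nonneg (x j)) (mem_univ i)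
    rw [show ∑ j, x j ^ 2 = 1 from hx] at h1
    rw [Real.norm_eq_abs]
    exact abs_le_one_iff_mul_self_le_one.2 (by nlinarith)
  have hcomp : IsCompact K := Metric.isCompact_of_isClosed_isBounded hcl hbd
  have hne : K.Nonempty := by
    obtain ⟨i⟩ := ‹Nonempty ι›
    refine ⟨Pi.single i 1, ?_⟩
    change ∑ j, (Pi.single i (1 : ℝ) : ι → ℝ) j ^ 2 = 1
    rw [sum_eq_single i]
    · simp
    · intro j _ hj
      simp [Pi.single_apply, hj]
    · simp
  have hcont : Continuous fun x : ι → ℝ => qf g x x := by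
    unfold qf
    fun_prop
  obtain ⟨x, hxK, hmin⟩ := hcomp.exists_isMinOn hne hcont.continuousOn
  set μ := qf g x x with hμ
  -- homogeneity
  have hge : ∀ y : ι → ℝ, μ * ∑ i, y i ^ 2 ≤ qf g y y := by
    intro y
    by_cases hy : ∑ i, y i ^ 2 = 0
    · have : y = 0 := by
        funext i
        have := (sum_eq_zero_iff_of_nonneg (fun i _ => sq_nonneg (y i))).1 hy i (mem_univ i)
        simpa using this
      rw [this]
      simp [qf]
    · have hpos : 0 < ∑ i, y i ^ 2 :=
        lt_of_le_of_ne (sum_nonneg fun i _ => sq_nonneg _) (Ne.symm hy)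
      set c := Real.sqrt (∑ i, y i ^ 2) with hcdef
      have hc0 : 0 < c := Real.sqrt_pos.2 hpos
      have hcsq : c ^ 2 = ∑ i, y i ^ 2 := Real.sq_sqrt hpos.le
      have h1 : (c⁻¹ • y) ∈ K := by
        change ∑ i, (c⁻¹ • y) i ^ 2 = 1
        simp only [Pi.smul_apply, smul_eq_mul, mul_pow]
        rw [← mul_sum, ← hcsq, ← mul_pow, inv_mul_cancel₀ hc0.ne', one_pow]
      have h2 : μ ≤ qf g (c⁻¹ • y) (c⁻¹ • y) := hmin h1
      rw [qf_smul_left, qf_smul_right] at h2
      rw [← hcsq]
      have h3 : μ * c ^ 2 ≤ c⁻¹ * (c⁻¹ * qf g y y) * c ^ 2 :=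
        mul_le_mul_of_nonneg_right h2 (sq_nonneg c)
      have h4 : c⁻¹ * (c⁻¹ * qf g y y) * c ^ 2 = qf g y y := by
        field_simp
      rwa [h4] at h3
  -- the absolute value is also a minimiser
  set v : ι → ℝ := fun i => |x i| with hv
  have hv0 : ∀ i, 0 ≤ v i := fun i => abs_nonneg _
  have hvs : ∑ i, v i ^ 2 = 1 := by
    simp only [hv, sq_abs]
    exact hxK
  have hvle : qf g v v ≤ μ := by
    rw [hμ]
    unfold qf
    refine sum_le_sum fun i _ => sum_le_sum fun j _ => ?_
    by_cases hij : i = j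
    · subst hij
      simp only [hv, abs_mul_abs_self]
      exact le_rfl
    · have h1 : x i * x j ≤ v i * v j := by
        simp only [hv]
        rw [← abs_mul]
        exact le_abs_self _
      exact mul_le_mul_of_nonpos_left h1 (ho i j hij)
  -- eigenvector equation
  have heig : ∀ i, ∑ j, g i j * v j = μ * v i := by
    intro i
    set a := ∑ j, g i j * v j with ha
    set y : ι → ℝ := Pi.single i 1 with hy
    have hqy : qf g v y = a := by
      rw [qf_comm g hs, qf_eq, sum_eq_single i]
      · simp [hy, ha]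
      · intro j _ hj
        simp [hy, Pi.single_apply, hj]
      · simp
    have key : ∀ ε : ℝ, 0 ≤ 2 * ε * (a - μ * v i) + ε ^ 2 * (qf g y y - μ) := by
      intro ε
      have h1 := hge (v + ε • y)
      have h2 : ∑ j, (v + ε • y) j ^ 2 = 1 + 2 * ε * v i + ε ^ 2 := by
        have h3 : ∀ j, (v + ε • y) j ^ 2 = v j ^ 2 + (if j = i then 2 * ε * v i + ε ^ 2 else 0) := by
          intro j
          by_cases hj : j = i
          · subst hj; simp [hy]; ring
          · simp [hy, Pi.single_apply, hj]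
        simp only [h3, sum_add_distrib, sum_ite_eq', mem_univ, if_true, hvs]
        ring
      rw [h2, qf_add_left, qf_add_right, qf_add_right, qf_smul_left, qf_smul_left, qf_smul_right,
        qf_smul_right, qf_comm g hs y v, hqy] at h1
      nlinarith [h1, hvle]
    have h0 : a - μ * v i = 0 := by
      by_contra hne0
      set b := a - μ * v i with hb
      set c := qf g y y - μ with hcc
      -- choose ε of the right sign and small
      have h1 := key (-b / (|c| + 1))
      have hc1 : 0 < |c| + 1 := by positivity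
      have h2 : 2 * (-b / (|c| + 1)) * b + (-b / (|c| + 1)) ^ 2 * c =
          (b ^ 2 / (|c| + 1)) * (-2 + c / (|c| + 1)) := by
        field_simp
      rw [h2] at h1
      have h3 : c / (|c| + 1) ≤ 1 := by
        rw [div_le_one hc1]
        linarith [le_abs_self c]
      have h4 : 0 < b ^ 2 / (|c| + 1) := by positivity
      nlinarith
    linarith
  have hvne : v ≠ 0 := by
    intro h
    rw [h] at hvs
    simp at hvs
  refine ⟨v, μ, fun i => pos_of_conn ho hc hv0 hvne (fun i hi => ?_) i, heig⟩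
  rw [heig, hi, mul_zero]

end Vale.Agent.P203.Cox
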