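import Vale.Agent.P203.Cox0.Long
import Vale.Agent.P203.Cox0.Perron

/-! P203, block COX-BASICS, part 6: finite parabolic subgroups and positive definiteness.

`U : Finset B` is a finite set of simple reflections.
* `exists_two_of_finite` : if `parab cs U` is finite there is `v > 0` on `U` with
  `∑ t ∈ U, gram M r t * v t = 2` for all `r ∈ U`  (sum of the positive roots).
* `form_nonneg_of_pos`, `form_pos_of_pos`, `form_pos_of_finite` : positive definiteness.
* `finite_of_pos` : `v > 0`, `B_U v > 0` imply that `parab cs U` is finite.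
* `finite_parab_iff`.
* `NN_sub_act_of_dominant`, `NN_act_sub_of_antidominant`.
-/

set_option linter.all false

namespace Vale.Agent.P203.Cox

variable {B : Type*} {W : Type*} [Group W] {M : CoxeterMatrix B} {cs : CoxeterSystem M W}

/-! ### The Gram matrix -/

theorem gram_le_two (i j : B) : gram M i j ≤ 2 := by
  unfold gram
  split_ifs with h
  · norm_num
  · have := Real.neg_one_le_cos (Real.pi / (M i j))
    linarith

theorem gram_nonpos {i j : B} (h : i ≠ j) : gram M i j ≤ 0 := by
  unfold gram
  split_ifs with h0
  · norm_num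
  · have h1 : M i j ≠ 1 := M.off_diagonal i j h
    have h2 : (2 : ℝ) ≤ M i j := by
      have : 2 ≤ M i j := by omega
      exact_mod_cast this
    have h3 : 0 ≤ Real.cos (Real.pi / (M i j)) := by
      apply Real.cos_nonneg_of_mem_Icc
      have hp := Real.pi_pos
      constructor
      · have : 0 ≤ Real.pi / (M i j) := by positivity
        linarith
      · apply div_le_div_of_nonneg_left hp.le (by norm_num) h2
    linarith

theorem gram_eq_zero_iff {i j : B} (h : i ≠ j) : gram M i j = 0 ↔ M i j = 2 := by
  constructor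
  · intro h0
    unfold gram at h0
    split_ifs at h0 with h1
    · norm_num at h0
    · by_contra h2
      have h3 : M i j ≠ 1 := M.off_diagonal i j h
      have h4 : (3 : ℝ) ≤ M i j := by
        have : 3 ≤ M i j := by omega
        exact_mod_cast this
      have h5 : 0 < Real.cos (Real.pi / (M i j)) := by
        apply Real.cos_pos_of_mem_Ioo
        have hp := Real.pi_pos
        constructor
        · have : 0 ≤ Real.pi / (M i j) := by positivity
          linarith
        · exact div_lt_div_of_pos_left hp (by norm_num) (by linarith)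
      linarith
  · intro h2
    unfold gram
    rw [h2]
    simp

/-! ### Vectors supported on a finite set -/

/-- the vector with coordinates `v t`, `t ∈ U`, and `0` elsewhere -/
noncomputable def toV (U : Finset B) (v : B → ℝ) : VSp B := ∑ t ∈ U, Finsupp.single t (v t)

theorem toV_apply_mem {U : Finset B} {v : B → ℝ} {i : B} (hi : i ∈ U) : toV U v i = v i := by
  classical
  rw [toV, Finsupp.finsetSum_apply, Finset.sum_eq_single i]
  · simp
  · intro j _ hj
    simp [hj]
  · intro h; exact absurd hi h

theorem toV_apply_not_mem {U : Finset B} {v : B → ℝ} {i : B} (hi : i ∉ U) : toV U v i = 0 := by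
  classical
  rw [toV, Finsupp.finsetSum_apply, Finset.sum_eq_zero]
  intro j hj
  have : j ≠ i := fun h => hi (h ▸ hj)
  simp [this]

theorem eq_toV {U : Finset B} {y : VSp B} (hy : ∀ i, i ∉ U → y i = 0) : y = toV U y := by
  ext i
  by_cases hi : i ∈ U
  · rw [toV_apply_mem hi]
  · rw [toV_apply_not_mem hi, hy i hi]

theorem form_single_toV (U : Finset B) (v : B → ℝ) (i : B) :
    form M (Finsupp.single i 1) (toV U v) = ∑ t ∈ U, gram M i t * v t := by
  rw [toV, map_sum]
  refine Finset.sum_congr rfl fun t _ => ?_
  rw [form_single]; ring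

theorem form_single_of_supp {U : Finset B} {y : VSp B} (hy : ∀ i, i ∉ U → y i = 0) (i : B) :
    form M (Finsupp.single i 1) y = ∑ t ∈ U, gram M i t * y t := by
  conv_lhs => rw [eq_toV hy]
  exact form_single_toV U y i

theorem form_of_supp {U : Finset B} {x : VSp B} (hx : ∀ i, i ∉ U → x i = 0) (y : VSp B) :
    form M x y = ∑ t ∈ U, x t * form M (Finsupp.single t 1) y := by
  conv_lhs => rw [eq_toV hx]
  rw [toV, map_sum, LinearMap.sum_apply]
  refine Finset.sum_congr rfl fun t _ => ?_
  have : Finsupp.single t (x t) = x t • Finsupp.single t (1 : ℝ) := by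
    rw [Finsupp.smul_single, smul_eq_mul, mul_one]
  rw [this, map_smul, LinearMap.smul_apply, smul_eq_mul]

theorem form_eq_qf {U : Finset B} {x y : VSp B} (hx : ∀ i, i ∉ U → x i = 0)
    (hy : ∀ i, i ∉ U → y i = 0) :
    form M x y = qf (fun i j : U => gram M i j) (fun i => x i) (fun j => y j) := by
  rw [qf_eq, form_of_supp hx, ← Finset.sum_coe_sort]
  refine Finset.sum_congr rfl fun t _ => ?_
  rw [form_single_of_supp hy, ← Finset.sum_coe_sort]

section PosDef

variable {U : Finset B}

/-- the hypothesis `B_U v > 0`, `v > 0` in terms of the subtype -/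
theorem posdef_aux {v : B → ℝ} (hv : ∀ t ∈ U, 0 < v t)
    (hB : ∀ r ∈ U, 0 < ∑ t ∈ U, gram M r t * v t) {y : VSp B} (hy : ∀ i, i ∉ U → y i = 0)
    (h0 : y ≠ 0) : 0 < form M y y := by
  rw [form_eq_qf hy hy]
  refine posdef_of_pos (fun i j => gram_comm _ _)
    (fun i j hij => gram_nonpos fun h => hij (Subtype.ext h)) (v := fun i => v i)
    (fun i => hv i i.2) (fun i => ?_) ?_
  · have := hB i i.2
    rwa [← Finset.sum_coe_sort] at this
  · intro h
    apply h0
    ext i
    by_cases hi : i ∈ U
    · exact congrFun h ⟨i, hi⟩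
    · exact hy i hi

theorem nonneg_aux {v : B → ℝ} (hv : ∀ t ∈ U, 0 < v t)
    (hB : ∀ r ∈ U, 0 < ∑ t ∈ U, gram M r t * v t) {x : B → ℝ}
    (hx : ∀ r ∈ U, 0 ≤ ∑ t ∈ U, gram M r t * x t) : ∀ t ∈ U, 0 ≤ x t := by
  intro t ht
  refine nonneg_of_mul_nonneg (g := fun i j : U => gram M i j)
    (fun i j hij => gram_nonpos fun h => hij (Subtype.ext h)) (fun y hy => ?_)
    (x := fun i => x i) (fun i => ?_) ⟨t, ht⟩
  · refine posdef_of_pos (fun i j => gram_comm _ _)
      (fun i j hij => gram_nonpos fun h => hij (Subtype.ext h)) (v := fun i => v i)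
      (fun i => hv i i.2) (fun i => ?_) hy
    have := hB i i.2
    rwa [← Finset.sum_coe_sort] at this
  · have := hx i i.2
    rwa [← Finset.sum_coe_sort] at this

end PosDef

/-! ### Dominant and antidominant vectors -/

section Dom

variable {T : Set B}

/-- `x - w x ≥ 0` for `w ∈ W_T` and `x` with `B x ≥ 0` on `T` -/
theorem NN_sub_act_of_dominant {x : VSp B} (hx : ∀ t ∈ T, 0 ≤ form M (Finsupp.single t 1) x)
    {w : W} (hw : w ∈ parab cs T) : NN (x - act cs w x) := by
  induction hn : cs.length w using Nat.strong_induction_on generalizing w with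
  | _ n ih =>
    by_cases h1 : w = 1
    · subst h1
      rw [act_one_apply, sub_self]
      intro i; simp
    · obtain ⟨t, ht, h2⟩ := exists_desc_parab hw h1
      have hw' : w * cs.simple t ∈ parab cs T := mul_mem hw (simple_mem_parab ht)
      have h3 := ih _ (by omega) hw' rfl
      have hpos : NN (act cs (w * cs.simple t) (Finsupp.single t 1)) := by
        rw [← length_lt_iff_NN, simple_simple]; exact h2
      have e : act cs w x = act cs (w * cs.simple t) x -
          form M (Finsupp.single t 1) x • act cs (w * cs.simple t) (Finsupp.single t 1) := by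
        conv_lhs => rw [← simple_simple (cs := cs) w t]
        rw [act_mul_apply (w * cs.simple t), act_simple, map_sub, map_smul]
      rw [e]
      have := h3.add (hpos.smul (hx t ht))
      have e2 : x - (act cs (w * cs.simple t) x -
          form M (Finsupp.single t 1) x • act cs (w * cs.simple t) (Finsupp.single t 1)) =
          x - act cs (w * cs.simple t) x +
          form M (Finsupp.single t 1) x • act cs (w * cs.simple t) (Finsupp.single t 1) := by abel
      rw [e2]
      exact this

theorem NN_act_sub_of_antidominant {x : VSp B}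
    (hx : ∀ t ∈ T, form M (Finsupp.single t 1) x ≤ 0)
    {w : W} (hw : w ∈ parab cs T) : NN (act cs w x - x) := by
  have h := NN_sub_act_of_dominant (cs := cs) (x := -x) (T := T)
    (fun t ht => by rw [map_neg]; linarith [hx t ht]) hw
  rw [map_neg] at h
  have e : act cs w x - x = -x - -act cs w x := by abel
  rw [e]; exact h

theorem act_eq_of_orthogonal {x : VSp B}
    (hx : ∀ t ∈ T, form M (Finsupp.single t 1) x = 0)
    {w : W} (hw : w ∈ parab cs T) : act cs w x = x := by
  have h1 := NN_sub_act_of_dominant (cs := cs) (x := x) (T := T) (fun t ht => (hx t ht).ge) hw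
  have h2 := NN_act_sub_of_antidominant (cs := cs) (x := x) (T := T) (fun t ht => (hx t ht).le) hw
  rw [← neg_sub] at h2
  exact (sub_eq_zero.1 (eq_zero_of_NN h1 h2)).symm

end Dom

/-! ### The sum of the positive roots of a finite parabolic subgroup -/

section Rho

variable {T : Set B}

theorem root_supp {t : W} (ht : cs.IsReflection t) (hT : t ∈ parab cs T) {i : B} (hi : i ∉ T) :
    root cs t i = 0 := by
  have h := act_parab_apply hT (root cs t) hi
  rw [act_root_self ht] at h
  simp only [Finsupp.coe_neg, Pi.neg_apply] at h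
  linarith

theorem act_simple_root {t : W} (ht : cs.IsReflection t) {r : B} (h : t ≠ cs.simple r) :
    act cs (cs.simple r) (root cs t) = root cs (cs.simple r * t * cs.simple r) := by
  have h1 : cs.length (cs.simple r) < cs.length (cs.simple r * t) := by
    rw [cs.length_simple]
    have h2 : cs.simple r * t ≠ 1 := by
      intro h3
      apply h
      have h4 := eq_inv_of_mul_eq_one_right h3
      rw [h4, cs.inv_simple]
    have h3 : cs.length (cs.simple r * t) ≠ 0 := by
      rw [Ne, cs.length_eq_zero_iff]; exact h2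
    have h4 : cs.length (cs.simple r * t) % 2 = 0 := by
      rw [cs.length_mul_mod_two, cs.length_simple]
      have := ht.odd_length
      rcases this with ⟨k, hk⟩
      omega
    omega
  have h2 := act_root_of_lt ht h1
  rwa [cs.inv_simple] at h2

/-- the sum of the positive roots of `parab cs T` -/
noncomputable def rho2 (cs : CoxeterSystem M W) (T : Set B) : VSp B :=
  ∑ᶠ t ∈ {t : W | cs.IsReflection t ∧ t ∈ parab cs T}, root cs t

theorem refl_finite [Finite (parab cs T)] :
    {t : W | cs.IsReflection t ∧ t ∈ parab cs T}.Finite :=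
  (Set.toFinite (parab cs T : Set W)).subset fun _ h => h.2

theorem act_simple_rho2 [Finite (parab cs T)] {r : B} (hr : r ∈ T) :
    act cs (cs.simple r) (rho2 cs T) = rho2 cs T - (2 : ℝ) • Finsupp.single r 1 := by
  classical
  have hfin : {t : W | cs.IsReflection t ∧ t ∈ parab cs T}.Finite := refl_finite
  set R := hfin.toFinset with hR
  have hmem : ∀ t, t ∈ R ↔ cs.IsReflection t ∧ t ∈ parab cs T := fun t => by
    rw [hR, Set.Finite.mem_toFinset]; rfl
  have hsum : rho2 cs T = ∑ t ∈ R, root cs t := by
    rw [rho2, finsum_mem_eq_finite_toFinset_sum _ hfin]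
  have hrR : cs.simple r ∈ R := (hmem _).2 ⟨cs.isReflection_simple r, simple_mem_parab hr⟩
  have h1 : rho2 cs T = Finsupp.single r 1 + ∑ t ∈ R.erase (cs.simple r), root cs t := by
    rw [hsum, ← Finset.add_sum_erase _ _ hrR, root_simple]
  have h2 : act cs (cs.simple r) (∑ t ∈ R.erase (cs.simple r), root cs t) =
      ∑ t ∈ R.erase (cs.simple r), root cs t := by
    rw [map_sum]
    have : ∀ t ∈ R.erase (cs.simple r), act cs (cs.simple r) (root cs t) =
        root cs (cs.simple r * t * cs.simple r) := fun t ht => by
      rw [Finset.mem_erase] at ht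
      exact act_simple_root ((hmem t).1 ht.2).1 ht.1
    rw [Finset.sum_congr rfl this]
    refine Finset.sum_nbij' (fun t => cs.simple r * t * cs.simple r)
      (fun t => cs.simple r * t * cs.simple r) ?_ ?_ ?_ ?_ ?_
    · intro t ht
      rw [Finset.mem_erase, hmem] at ht ⊢
      refine ⟨fun h => ht.1 ?_, ?_, ?_⟩
      · have h3 : t = cs.simple r * (cs.simple r * t * cs.simple r) * cs.simple r := by
          simp [mul_assoc]
        rw [h3, h]; simp [mul_assoc]
      · have := ht.2.1.conj (cs.simple r)
        rwa [cs.inv_simple] at this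
      · exact mul_mem (mul_mem (simple_mem_parab hr) ht.2.2) (simple_mem_parab hr)
    · intro t ht
      rw [Finset.mem_erase, hmem] at ht ⊢
      refine ⟨fun h => ht.1 ?_, ?_, ?_⟩
      · have h3 : t = cs.simple r * (cs.simple r * t * cs.simple r) * cs.simple r := by
          simp [mul_assoc]
        rw [h3, h]; simp [mul_assoc]
      · have := ht.2.1.conj (cs.simple r)
        rwa [cs.inv_simple] at this
      · exact mul_mem (mul_mem (simple_mem_parab hr) ht.2.2) (simple_mem_parab hr)
    · intro t _; simp [mul_assoc]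
    · intro t _; simp [mul_assoc]
    · intro t _; rfl
  rw [h1, map_add, h2, act_simple_self, two_smul]
  abel

theorem form_single_rho2 [Finite (parab cs T)] {r : B} (hr : r ∈ T) :
    form M (Finsupp.single r 1) (rho2 cs T) = 2 := by
  have h := act_simple_rho2 (cs := cs) hr
  rw [act_simple] at h
  have h2 : (form M (Finsupp.single r 1) (rho2 cs T)) • (Finsupp.single r (1 : ℝ)) =
      (2 : ℝ) • Finsupp.single r 1 := by
    have := congrArg (fun y => rho2 cs T - y) h
    simpa only [sub_sub_cancel] using this
  have h3 := congrArg (fun y : VSp B => y r) h2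
  simpa using h3

theorem rho2_supp [Finite (parab cs T)] {i : B} (hi : i ∉ T) : rho2 cs T i = 0 := by
  have hfin : {t : W | cs.IsReflection t ∧ t ∈ parab cs T}.Finite := refl_finite
  rw [rho2, finsum_mem_eq_finite_toFinset_sum _ hfin, Finsupp.finsetSum_apply]
  refine Finset.sum_eq_zero fun t ht => ?_
  rw [Set.Finite.mem_toFinset] at ht
  exact root_supp ht.1 ht.2 hi

theorem rho2_pos [Finite (parab cs T)] {r : B} (hr : r ∈ T) : 1 ≤ rho2 cs T r := by
  have hfin : {t : W | cs.IsReflection t ∧ t ∈ parab cs T}.Finite := refl_finite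
  rw [rho2, finsum_mem_eq_finite_toFinset_sum _ hfin, Finsupp.finsetSum_apply]
  have h1 : cs.simple r ∈ hfin.toFinset := by
    rw [Set.Finite.mem_toFinset]
    exact ⟨cs.isReflection_simple r, simple_mem_parab hr⟩
  have h2 := Finset.single_le_sum (f := fun t => root cs t r)
    (fun t _ => root_nonneg t r) h1
  simp only [root_simple, Finsupp.single_eq_same] at h2
  exact h2

/-- if `parab cs U` is finite there is `v > 0` on `U` with `B_U v = 2` -/
theorem exists_two_of_finite {U : Finset B} (h : Finite (parab cs (U : Set B))) :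
    ∃ v : B → ℝ, (∀ t ∈ U, 1 ≤ v t) ∧ (∀ t, t ∉ U → v t = 0) ∧
      ∀ r ∈ U, ∑ t ∈ U, gram M r t * v t = 2 := by
  refine ⟨rho2 cs (U : Set B), fun t ht => rho2_pos ht, fun t ht => rho2_supp (by simpa using ht),
    fun r hr => ?_⟩
  rw [← form_single_of_supp (fun i hi => rho2_supp (by simpa using hi))]
  exact form_single_rho2 (by simpa using hr)

end Rho

/-! ### Positive definite implies finite -/

section Fin

variable {U : Finset B}

theorem form_le_sum_sq {y : VSp B} (hy : ∀ i, i ∉ U → y i = 0) (hp : NN y) :
    form M y y ≤ 2 * (∑ t ∈ U, y t) ^ 2 := by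
  rw [form_of_supp hy, sq, Finset.sum_mul, Finset.mul_sum]
  refine Finset.sum_le_sum fun t _ => ?_
  rw [form_single_of_supp hy]
  have h1 : ∑ s ∈ U, gram M t s * y s ≤ ∑ s ∈ U, 2 * y s :=
    Finset.sum_le_sum fun s _ => mul_le_mul_of_nonneg_right (gram_le_two t s) (hp s)
  rw [← Finset.mul_sum] at h1
  have := mul_le_mul_of_nonneg_left h1 (hp t)
  linarith

theorem one_le_sum_root {y : VSp B} (hy : ∀ i, i ∉ U → y i = 0) (hp : NN y)
    (h2 : form M y y = 2) : 1 ≤ ∑ t ∈ U, y t := by
  have h1 := form_le_sum_sq (M := M) hy hp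
  have h0 : 0 ≤ ∑ t ∈ U, y t := Finset.sum_nonneg fun t _ => hp t
  rw [h2] at h1
  nlinarith

/-- `v > 0` and `B_U v > 0` imply that `parab cs U` is finite -/
theorem finite_of_pos {v : B → ℝ} (hv : ∀ t ∈ U, 0 < v t)
    (hB : ∀ r ∈ U, 0 < ∑ t ∈ U, gram M r t * v t) : Finite (parab cs (U : Set B)) := by
  classical
  rcases U.eq_empty_or_nonempty with rfl | hne
  · rw [Finset.coe_empty, parab_empty]
    infer_instance
  -- the constant
  obtain ⟨c, hc0, hc⟩ : ∃ c : ℝ, 0 < c ∧ ∀ r ∈ U, c ≤ ∑ t ∈ U, gram M r t * v t := by
    obtain ⟨r, hr, h⟩ := U.exists_min_image (fun r => ∑ t ∈ U, gram M r t * v t) hne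
    exact ⟨_, hB r hr, h⟩
  set x := toV U v with hx
  have hxs : ∀ i, i ∉ U → x i = 0 := fun i hi => toV_apply_not_mem hi
  have hxc : ∀ r ∈ U, c ≤ form M (Finsupp.single r 1) x := fun r hr => by
    rw [hx, form_single_toV]; exact hc r hr
  have key : ∀ n, ∀ w ∈ parab cs (U : Set B), cs.length w = n →
      c ^ 2 * n ≤ form M x (x - act cs w x) := by
    intro n
    induction n with
    | zero =>
      intro w _ hn
      rw [cs.length_eq_zero_iff] at hn
      subst hn
      simp [act_one_apply]
    | succ n ih =>
      intro w hw hn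
      have h1 : w ≠ 1 := by rintro rfl; simp at hn
      obtain ⟨t, ht, h2⟩ := exists_desc_parab hw h1
      have htU : t ∈ U := by simpa using ht
      have hw' : w * cs.simple t ∈ parab cs (U : Set B) := mul_mem hw (simple_mem_parab ht)
      have hl : cs.length (w * cs.simple t) = n := by
        rcases cs.length_mul_simple w t with h | h <;> omega
      have h3 := ih _ hw' hl
      set β := act cs (w * cs.simple t) (Finsupp.single t 1) with hβ
      have hpos : NN β := by
        rw [hβ, ← length_lt_iff_NN, simple_simple]; exact h2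
      have hβs : ∀ i, i ∉ U → β i = 0 := fun i hi => act_single_supp hw' ht (by simpa using hi)
      have hβ2 : form M β β = 2 := by rw [hβ, form_act, datum_act, gram_self]
      have e : act cs w x = act cs (w * cs.simple t) x -
          form M (Finsupp.single t 1) x • β := by
        conv_lhs => rw [← simple_simple (cs := cs) w t]
        rw [act_mul_apply (w * cs.simple t), act_simple, map_sub, map_smul]
      have e2 : x - act cs w x = (x - act cs (w * cs.simple t) x) +
          form M (Finsupp.single t 1) x • β := by rw [e]; abel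
      rw [e2, map_add, map_smul, smul_eq_mul]
      have h4 : c ≤ form M x β := by
        rw [form_comm, form_of_supp hβs]
        have h5 : ∑ t ∈ U, β t * c ≤ ∑ t ∈ U, β t * form M (Finsupp.single t 1) x :=
          Finset.sum_le_sum fun s hs => mul_le_mul_of_nonneg_left (hxc s hs) (hpos s)
        rw [← Finset.sum_mul] at h5
        have h6 := one_le_sum_root hβs hpos hβ2
        nlinarith
      have h5 := hxc t htU
      have h6 : c * c ≤ form M (Finsupp.single t 1) x * form M x β :=
        mul_le_mul h5 h4 hc0.le (hc0.le.trans h5)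
      push_cast
      nlinarith
  obtain ⟨N, hN⟩ := exists_nat_ge (2 * form M x x / c ^ 2)
  refine finite_of_length_le U.finite_toSet (n := N) fun w hw => ?_
  have h1 := key _ w hw rfl
  have h2 : 0 ≤ form M (x + act cs w x) (x + act cs w x) := by
    by_cases h0 : x + act cs w x = 0
    · rw [h0]; simp
    · refine (posdef_aux hv hB (fun i hi => ?_) h0).le
      rw [Finsupp.add_apply, act_parab_apply hw x (by simpa using hi), hxs i hi, add_zero]
  have h3 : form M x (x - act cs w x) ≤ 2 * form M x x := by
    simp only [map_add, LinearMap.add_apply, form_act] at h2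
    rw [form_comm (act cs w x) x] at h2
    rw [map_sub]
    linarith
  have h4 : (cs.length w : ℝ) ≤ 2 * form M x x / c ^ 2 := by
    rw [le_div_iff₀ (by positivity)]
    linarith
  exact_mod_cast h4.trans hN

/-- a finite set `U` of simple reflections generates a finite group iff there is `v > 0` on `U`
with `B_U v > 0` -/
theorem finite_parab_iff : Finite (parab cs (U : Set B)) ↔
    ∃ v : B → ℝ, (∀ t ∈ U, 0 < v t) ∧ ∀ r ∈ U, 0 < ∑ t ∈ U, gram M r t * v t := by
  constructor
  · intro h
    obtain ⟨v, h1, _, h3⟩ := exists_two_of_finite h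
    exact ⟨v, fun t ht => one_pos.trans_le (h1 t ht), fun r hr => by rw [h3 r hr]; norm_num⟩
  · rintro ⟨v, hv, hB⟩
    exact finite_of_pos hv hB

/-- the form is positive definite on the span of `U` if `parab cs U` is finite -/
theorem form_pos_of_finite (h : Finite (parab cs (U : Set B))) {y : VSp B}
    (hy : ∀ i, i ∉ U → y i = 0) (h0 : y ≠ 0) : 0 < form M y y := by
  obtain ⟨v, hv, hB⟩ := finite_parab_iff.1 h
  exact posdef_aux hv hB hy h0

/-- `B_U x ≥ 0` implies `x ≥ 0` on `U` if `parab cs U` is finite -/
theorem nonneg_of_finite (h : Finite (parab cs (U : Set B))) {x : B → ℝ}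
    (hx : ∀ r ∈ U, 0 ≤ ∑ t ∈ U, gram M r t * x t) : ∀ t ∈ U, 0 ≤ x t := by
  obtain ⟨v, hv, hB⟩ := finite_parab_iff.1 h
  exact nonneg_aux hv hB hx

end Fin

end Vale.Agent.P203.Cox
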